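import Mathlib

/-!
P254U/ZP/Num: two elementary numerical inequalities.

`num_a`: at `n = 3` the ratio left/right is 0.79.  Induction: the ratio of consecutive ratios is
`((n+2)/(n+1))^(2n+5) * 4/π^4 < 1` since `((n+2)/(n+1))^(2n+5) ≤ exp ((2n+5)/(n+1)) ≤ exp (11/4) < 16`
and `π^4 > 97`.
`num_b`: at `n = 6` the ratio left/right is 0.73, at `n = 7` 0.52, at `n = 8` 0.37, ...; the ratio of
consecutive ratios is `((n+2)/(n+1))^(2n+5) * 3 (n+3)^(n+1) (n+4)^n / ((n+5)^(n+1) (n+2)^n) / (2π)^2`,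
about 0.7, and `(2π)^2 > 39.4`.  (Numerically `((n+2)/(n+1))^(2n+5)` is 9.68 for `n = 6` and decreases
to `e^2`, `((n+3)(n+4)/((n+5)(n+2)))^n = (1 + 2/((n+5)(n+2)))^n ≤ exp (2n/((n+5)(n+2))) ≤ exp (3/20)`.)
-/

open Set

namespace Vale.Agent.P254U

lemma Num_pow_le_exp {x y : ℝ} (hy : 0 < y) (hx : 0 ≤ x) (m : ℕ) :
    x ^ m ≤ y ^ m * Real.exp (m * ((x - y) / y)) := by
  have h1 : x / y ≤ Real.exp ((x - y) / y) := by
    have := Real.add_one_le_exp ((x - y) / y)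
    have h2 : (x - y) / y + 1 = x / y := by field_simp; ring
    linarith
  have h3 : (x / y) ^ m ≤ Real.exp (m * ((x - y) / y)) := by
    rw [Real.exp_nat_mul]
    exact pow_le_pow_left₀ (by positivity) h1 m
  have h4 : x ^ m = y ^ m * (x / y) ^ m := by
    rw [← mul_pow, mul_div_cancel₀ _ hy.ne']
  rw [h4]
  exact mul_le_mul_of_nonneg_left h3 (by positivity)

lemma Num_exp_a : Real.exp (11 / 4) < 16 := by
  have h1 : Real.exp (11 / 4) ^ 4 = Real.exp 1 ^ 11 := by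
    rw [← Real.exp_nat_mul, ← Real.exp_nat_mul]; norm_num
  have h2 : Real.exp 1 ^ 11 < 16 ^ 4 := by
    calc Real.exp 1 ^ 11 < 2.7182818286 ^ 11 :=
          pow_lt_pow_left₀ Real.exp_one_lt_d9 (Real.exp_pos _).le (by norm_num)
      _ < 16 ^ 4 := by norm_num
  exact lt_of_pow_lt_pow_left₀ 4 (by norm_num) (by rw [h1]; exact h2)

lemma Num_exp_b : Real.exp (18 / 7) < 13.1 := by
  have h1 : Real.exp (18 / 7) ^ 7 = Real.exp 1 ^ 18 := by
    rw [← Real.exp_nat_mul, ← Real.exp_nat_mul]; norm_num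
  have h2 : Real.exp 1 ^ 18 < 13.1 ^ 7 := by
    calc Real.exp 1 ^ 18 < 2.7182818286 ^ 18 :=
          pow_lt_pow_left₀ Real.exp_one_lt_d9 (Real.exp_pos _).le (by norm_num)
      _ < 13.1 ^ 7 := by norm_num
  exact lt_of_pow_lt_pow_left₀ 7 (by norm_num) (by rw [h1]; exact h2)

lemma Num_pi11 : (3.14 : ℝ) ^ 11 < Real.pi ^ 11 :=
  pow_lt_pow_left₀ Real.pi_gt_d2 (by norm_num) (by norm_num)

theorem num_a {n : ℕ} (hn : 3 ≤ n) :
    ((n : ℝ) + 1) ^ (2 * n + 3) * Real.pi * 4 ^ n < 2 * (n.factorial : ℝ) ^ 2 * (Real.pi ^ 4) ^ n := by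
  induction n, hn using Nat.le_induction with
  | base =>
    have h := Num_pi11
    have hp := Real.pi_pos
    have hf : ((Nat.factorial 3 : ℕ) : ℝ) = 6 := by norm_num [Nat.factorial]
    rw [hf]
    have e1 : (((3 : ℕ) : ℝ) + 1) ^ (2 * 3 + 3) * Real.pi * 4 ^ 3 = 16777216 * Real.pi := by
      push_cast; ring
    have e2 : 2 * (6 : ℝ) ^ 2 * (Real.pi ^ 4) ^ 3 = 72 * Real.pi ^ 11 * Real.pi := by ring
    rw [e1, e2]
    apply mul_lt_mul_of_pos_right _ hp
    norm_num at h ⊢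
    linarith
  | succ n hn ih =>
    have hp := Real.pi_pos
    have hn' : (3 : ℝ) ≤ n := by exact_mod_cast hn
    have hA : ((n : ℝ) + 2) ^ (2 * n + 5) ≤ ((n : ℝ) + 1) ^ (2 * n + 5) * 16 := by
      have h := Num_pow_le_exp (x := (n : ℝ) + 2) (y := (n : ℝ) + 1) (by positivity)
        (by positivity) (2 * n + 5)
      refine h.trans (mul_le_mul_of_nonneg_left ?_ (by positivity))
      refine le_trans (Real.exp_le_exp.mpr ?_) Num_exp_a.le
      have : ((n : ℝ) + 2 - ((n : ℝ) + 1)) / ((n : ℝ) + 1) = 1 / ((n : ℝ) + 1) := by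
        congr 1; ring
      rw [this]
      push_cast
      rw [mul_one_div, div_le_div_iff₀ (by positivity) (by norm_num)]
      linarith
    have hpi : (64 : ℝ) ≤ Real.pi ^ 4 := by
      have : (3 : ℝ) ^ 4 ≤ Real.pi ^ 4 := pow_le_pow_left₀ (by norm_num) Real.pi_gt_three.le 4
      norm_num at this ⊢
      linarith
    have hfac : (((n + 1).factorial : ℕ) : ℝ) = ((n : ℝ) + 1) * (n.factorial : ℝ) := by
      rw [Nat.factorial_succ]; push_cast; ring
    have e1 : (((n + 1 : ℕ) : ℝ) + 1) ^ (2 * (n + 1) + 3) * Real.pi * 4 ^ (n + 1)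
        = ((n : ℝ) + 2) ^ (2 * n + 5) * (4 * (Real.pi * 4 ^ n)) := by
      have : ((n + 1 : ℕ) : ℝ) + 1 = (n : ℝ) + 2 := by push_cast; ring
      rw [this, show 2 * (n + 1) + 3 = 2 * n + 5 by ring, pow_succ 4 n]
      ring
    have e2 : 2 * (((n + 1).factorial : ℕ) : ℝ) ^ 2 * (Real.pi ^ 4) ^ (n + 1)
        = (((n : ℝ) + 1) ^ 2 * Real.pi ^ 4) * (2 * (n.factorial : ℝ) ^ 2 * (Real.pi ^ 4) ^ n) := by
      rw [hfac, pow_succ (Real.pi ^ 4) n]
      ring
    rw [e1, e2]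
    calc ((n : ℝ) + 2) ^ (2 * n + 5) * (4 * (Real.pi * 4 ^ n))
        ≤ (((n : ℝ) + 1) ^ (2 * n + 5) * 16) * (4 * (Real.pi * 4 ^ n)) :=
          mul_le_mul_of_nonneg_right hA (by positivity)
      _ = (((n : ℝ) + 1) ^ 2 * 64) * (((n : ℝ) + 1) ^ (2 * n + 3) * Real.pi * 4 ^ n) := by
          rw [show 2 * n + 5 = (2 * n + 3) + 2 by ring, pow_add]; ring
      _ ≤ (((n : ℝ) + 1) ^ 2 * Real.pi ^ 4) * (((n : ℝ) + 1) ^ (2 * n + 3) * Real.pi * 4 ^ n) := by
          apply mul_le_mul_of_nonneg_right _ (by positivity)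
          exact mul_le_mul_of_nonneg_left hpi (by positivity)
      _ < _ := mul_lt_mul_of_pos_left ih (by positivity)

theorem num_b {n : ℕ} (hn : 6 ≤ n) :
    ((n : ℝ) + 1) ^ (2 * n + 3) * Real.pi * (3 * ((n : ℝ) + 2)) ^ n <
      2 * (n.factorial : ℝ) ^ 2 * (2 * Real.pi) ^ (2 * n) * ((n : ℝ) + 4) ^ n := by
  induction n, hn using Nat.le_induction with
  | base =>
    have h := Num_pi11
    have hp := Real.pi_pos
    have hf : ((Nat.factorial 6 : ℕ) : ℝ) = 720 := by norm_num [Nat.factorial]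
    rw [hf]
    have e1 : (((6 : ℕ) : ℝ) + 1) ^ (2 * 6 + 3) * Real.pi * (3 * (((6 : ℕ) : ℝ) + 2)) ^ 6
        = (7 ^ 15 * 24 ^ 6) * Real.pi := by
      push_cast; norm_num; ring
    have e2 : 2 * (720 : ℝ) ^ 2 * (2 * Real.pi) ^ (2 * 6) * (((6 : ℕ) : ℝ) + 4) ^ 6
        = (2 * 720 ^ 2 * 2 ^ 12 * 10 ^ 6) * Real.pi ^ 11 * Real.pi := by
      push_cast; norm_num; ring
    rw [e1, e2]
    apply mul_lt_mul_of_pos_right _ hp
    norm_num at h ⊢
    linarith
  | succ n hn ih =>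
    have hp := Real.pi_pos
    have hn' : (6 : ℝ) ≤ n := by exact_mod_cast hn
    set x : ℝ := (n : ℝ) with hx
    have hA := Num_pow_le_exp (x := x + 2) (y := x + 1) (by positivity)
        (by positivity) (2 * n + 5)
    have hB := Num_pow_le_exp (x := (x + 3) * (x + 4)) (y := (x + 2) * (x + 5)) (by positivity)
        (by positivity) n
    have hE : Real.exp (((2 * n + 5 : ℕ) : ℝ) * ((x + 2 - (x + 1)) / (x + 1))) *
        Real.exp ((n : ℝ) * (((x + 3) * (x + 4) - (x + 2) * (x + 5)) / ((x + 2) * (x + 5)))) ≤ 13.1 := by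
      rw [← Real.exp_add]
      refine le_trans (Real.exp_le_exp.mpr ?_) Num_exp_b.le
      have h1 : ((2 * n + 5 : ℕ) : ℝ) * ((x + 2 - (x + 1)) / (x + 1)) ≤ 17 / 7 := by
        have : (x + 2 - (x + 1)) / (x + 1) = 1 / (x + 1) := by
          congr 1; ring
        rw [this]
        push_cast
        rw [mul_one_div, div_le_div_iff₀ (by positivity) (by norm_num)]
        rw [← hx]
        linarith
      have h2 : (n : ℝ) * (((x + 3) * (x + 4) - (x + 2) * (x + 5)) / ((x + 2) * (x + 5))) ≤ 1 / 7 := by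
        have : ((x + 3) * (x + 4) - (x + 2) * (x + 5)) = 2 := by ring
        rw [this, ← mul_div_assoc, div_le_div_iff₀ (by positivity) (by norm_num), ← hx]
        nlinarith
      have h3 : (17 : ℝ) / 7 + 1 / 7 = 18 / 7 := by norm_num
      rw [← h3]
      exact add_le_add h1 h2
    have hAB : (x + 2) ^ (2 * n + 5) * ((x + 3) * (x + 4)) ^ n ≤
        (x + 1) ^ (2 * n + 5) * ((x + 2) * (x + 5)) ^ n * 13.1 := by
      calc (x + 2) ^ (2 * n + 5) * ((x + 3) * (x + 4)) ^ n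
          ≤ ((x + 1) ^ (2 * n + 5) * Real.exp (((2 * n + 5 : ℕ) : ℝ) * ((x + 2 - (x + 1)) / (x + 1)))) *
            (((x + 2) * (x + 5)) ^ n * Real.exp ((n : ℝ) * (((x + 3) * (x + 4) - (x + 2) * (x + 5)) / ((x + 2) * (x + 5))))) :=
            mul_le_mul hA hB (by positivity) (by positivity)
        _ = (x + 1) ^ (2 * n + 5) * ((x + 2) * (x + 5)) ^ n *
            (Real.exp (((2 * n + 5 : ℕ) : ℝ) * ((x + 2 - (x + 1)) / (x + 1))) *
            Real.exp ((n : ℝ) * (((x + 3) * (x + 4) - (x + 2) * (x + 5)) / ((x + 2) * (x + 5))))) := by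
            ring
        _ ≤ _ := mul_le_mul_of_nonneg_left hE (by positivity)
    have hpi : (39.3 : ℝ) ≤ (2 * Real.pi) ^ 2 := by
      have := Real.pi_gt_d4
      nlinarith
    have hfac : (((n + 1).factorial : ℕ) : ℝ) = (x + 1) * (n.factorial : ℝ) := by
      rw [Nat.factorial_succ]; push_cast; ring
    have hx4 : 0 < (x + 4) ^ n := by positivity
    have hx2 : 0 < (x + 2) ^ n := by positivity
    have e0 : ((n + 1 : ℕ) : ℝ) = x + 1 := by push_cast; ring
    rw [hfac, e0]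
    have e1 : (x + 1 + 1) ^ (2 * (n + 1) + 3) * Real.pi * (3 * (x + 1 + 2)) ^ (n + 1)
        = (x + 2) ^ (2 * n + 5) * (x + 3) ^ n * (3 * (x + 3) * Real.pi * 3 ^ n) := by
      rw [show x + 1 + 1 = x + 2 by ring, show x + 1 + 2 = x + 3 by ring,
        show 2 * (n + 1) + 3 = 2 * n + 5 by ring, pow_succ (3 * (x + 3)) n, mul_pow]
      ring
    have e2 : 2 * ((x + 1) * (n.factorial : ℝ)) ^ 2 * (2 * Real.pi) ^ (2 * (n + 1)) * (x + 1 + 4) ^ (n + 1)
        = (x + 1) ^ 2 * (2 * Real.pi) ^ 2 * (x + 5) ^ (n + 1) *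
          (2 * (n.factorial : ℝ) ^ 2 * (2 * Real.pi) ^ (2 * n)) := by
      rw [show x + 1 + 4 = x + 5 by ring, show 2 * (n + 1) = 2 * n + 2 by ring,
        pow_add (2 * Real.pi) (2 * n) 2]
      ring
    rw [e1, e2]
    -- multiply both sides by (x+4)^n
    apply lt_of_mul_lt_mul_right _ hx4.le
    calc (x + 2) ^ (2 * n + 5) * (x + 3) ^ n * (3 * (x + 3) * Real.pi * 3 ^ n) * (x + 4) ^ n
        = ((x + 2) ^ (2 * n + 5) * ((x + 3) * (x + 4)) ^ n) * (3 * (x + 3) * Real.pi * 3 ^ n) := by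
          rw [mul_pow]; ring
      _ ≤ ((x + 1) ^ (2 * n + 5) * ((x + 2) * (x + 5)) ^ n * 13.1) * (3 * (x + 3) * Real.pi * 3 ^ n) :=
          mul_le_mul_of_nonneg_right hAB (by positivity)
      _ = (39.3 * (x + 3)) * ((x + 1) ^ 2 * (x + 5) ^ n *
            ((x + 1) ^ (2 * n + 3) * Real.pi * (3 * (x + 2)) ^ n)) := by
          rw [show 2 * n + 5 = (2 * n + 3) + 2 by ring, pow_add, mul_pow, mul_pow]; ring
      _ ≤ ((2 * Real.pi) ^ 2 * (x + 5)) * ((x + 1) ^ 2 * (x + 5) ^ n *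
            ((x + 1) ^ (2 * n + 3) * Real.pi * (3 * (x + 2)) ^ n)) := by
          apply mul_le_mul_of_nonneg_right _ (by positivity)
          exact mul_le_mul hpi (by linarith) (by positivity) (by positivity)
      _ < ((2 * Real.pi) ^ 2 * (x + 5)) * ((x + 1) ^ 2 * (x + 5) ^ n *
            (2 * (n.factorial : ℝ) ^ 2 * (2 * Real.pi) ^ (2 * n) * (x + 4) ^ n)) := by
          apply mul_lt_mul_of_pos_left _ (by positivity)
          exact mul_lt_mul_of_pos_left ih (by positivity)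
      _ = _ := by rw [pow_succ (x + 5) n]; ring

end Vale.Agent.P254U
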