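import Vale.Agent.Lib.P254U.ZP.Ball

/-!
P254U/ZP/Om: estimates for `JJ`.

Log-convexity of Gamma: `Γ(y+1/2)^2 ≤ Γ(y) Γ(y+1) = y Γ(y)^2` for `y > 0`
(`Real.Gamma_mul_add_mul_le_rpow_Gamma_mul_rpow_Gamma` or `Real.convexOn_log_Gamma`).
`om_lower`: duplication `Γ(n/2+1/2) Γ(n/2+1) = 2^(-n) π^(1/2) n!` (`Real.Gamma_mul_Gamma_add_half`),
so `Γ(n/2+1)^4 ≤ (n+1)/2 * (Γ(n/2+1) Γ(n/2+1/2))^2 = (n+1)/2 * 4^(-n) π (n!)^2`, and
`JJ n 0 = π^(n/2) / Γ(n/2+1)`.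
`j1_le`: `JJ n 1 / JJ n 0 = Γ(n/2+1) / (π^(1/2) Γ(n/2+3/2))` and
`Γ(n/2+1)^2 ≤ Γ(n/2+1/2) Γ(n/2+3/2) = Γ(n/2+3/2)^2 / (n/2+1/2)`.
`jp_le`: by `ball_moment`, `eball_vol`, `JJ n p / JJ n 0` is the mean of `|x_0|^p` over the ball; Jensen
(or Hoelder, `p ≤ 4`) `mean |x_0|^p ≤ (mean x_0^4)^(p/4)`, and `JJ n 4 / JJ n 0 = 3/((n+2)(n+4))`
(`Γ(5/2) = 3/4 Γ(1/2)`, `Γ(n/2+3) = (n/2+2)(n/2+1) Γ(n/2+1)`).
-/

open MeasureTheory Set

namespace Vale.Agent.P254U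

theorem Om_gamma_sq {y : ℝ} (hy : 0 < y) :
    Real.Gamma (y + 1 / 2) ^ 2 ≤ y * Real.Gamma y ^ 2 := by
  have h0 : 0 < Real.Gamma y := Real.Gamma_pos_of_pos hy
  have h1 := Real.Gamma_mul_add_mul_le_rpow_Gamma_mul_rpow_Gamma (s := y) (t := y + 1)
    (a := 1 / 2) (b := 1 / 2) hy (by linarith) (by norm_num) (by norm_num) (by norm_num)
  rw [Real.Gamma_add_one hy.ne', ← Real.sqrt_eq_rpow, ← Real.sqrt_eq_rpow] at h1
  have h2 : 1 / 2 * y + 1 / 2 * (y + 1) = y + 1 / 2 := by ring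
  rw [h2] at h1
  have h3 : 0 ≤ Real.Gamma (y + 1 / 2) := (Real.Gamma_pos_of_pos (by linarith)).le
  calc Real.Gamma (y + 1 / 2) ^ 2 ≤ (√(Real.Gamma y) * √(y * Real.Gamma y)) ^ 2 :=
        pow_le_pow_left₀ h3 h1 2
    _ = Real.Gamma y * (y * Real.Gamma y) := by
        rw [mul_pow, Real.sq_sqrt h0.le, Real.sq_sqrt (mul_pos hy h0).le]
    _ = y * Real.Gamma y ^ 2 := by ring

theorem Om_JJ0 (n : ℕ) : (JJ n 0) ^ 2 = Real.pi ^ n / Real.Gamma ((n : ℝ) / 2 + 1) ^ 2 := by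
  unfold JJ
  have h1 : ((0 : ℝ) + 1) / 2 = 1 / 2 := by norm_num
  have h2 : ((n : ℝ) + 0) / 2 + 1 = (n : ℝ) / 2 + 1 := by rw [add_zero]
  rw [h1, h2, Real.Gamma_one_half_eq, div_pow, mul_pow, Real.sq_sqrt Real.pi_pos.le]
  have h3 : (Real.pi ^ (((n : ℝ) - 1) / 2)) ^ 2 = Real.pi ^ ((n : ℝ) - 1) := by
    rw [← Real.rpow_natCast, ← Real.rpow_mul Real.pi_pos.le]
    norm_num
  rw [h3, Real.rpow_sub_one Real.pi_pos.ne', Real.rpow_natCast, mul_div_cancel₀ _ Real.pi_pos.ne']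

theorem Om_JJ1 (n : ℕ) : (JJ n 1) ^ 2 * Real.pi =
    Real.pi ^ n / Real.Gamma (((n : ℝ) / 2 + 1 / 2) + 1) ^ 2 := by
  unfold JJ
  have h1 : ((1 : ℝ) + 1) / 2 = 1 := by norm_num
  have h2 : ((n : ℝ) + 1) / 2 + 1 = ((n : ℝ) / 2 + 1 / 2) + 1 := by ring
  rw [h1, h2, Real.Gamma_one, one_mul, div_pow]
  have h3 : (Real.pi ^ (((n : ℝ) - 1) / 2)) ^ 2 = Real.pi ^ ((n : ℝ) - 1) := by
    rw [← Real.rpow_natCast, ← Real.rpow_mul Real.pi_pos.le]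
    norm_num
  rw [h3, Real.rpow_sub_one Real.pi_pos.ne', Real.rpow_natCast, div_mul_eq_mul_div,
    div_mul_cancel₀ _ Real.pi_pos.ne']

theorem Om_JJ4 (n : ℕ) : JJ n 4 = 3 / (((n : ℝ) + 2) * ((n : ℝ) + 4)) * JJ n 0 := by
  unfold JJ
  have hn : (0 : ℝ) ≤ n := Nat.cast_nonneg n
  have h1 : ((0 : ℝ) + 1) / 2 = 1 / 2 := by norm_num
  have h2 : ((n : ℝ) + 0) / 2 + 1 = (n : ℝ) / 2 + 1 := by rw [add_zero]
  have h3 : ((4 : ℝ) + 1) / 2 = (1 / 2 + 1) + 1 := by norm_num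
  have h4 : ((n : ℝ) + 4) / 2 + 1 = (((n : ℝ) / 2 + 1) + 1) + 1 := by ring
  have h5 : Real.Gamma ((1 / 2 + 1) + 1) = 3 / 2 * (1 / 2 * Real.Gamma (1 / 2)) := by
    rw [Real.Gamma_add_one (by norm_num), Real.Gamma_add_one (by norm_num)]
    norm_num
  have h6 : Real.Gamma ((((n : ℝ) / 2 + 1) + 1) + 1) =
      (((n : ℝ) / 2 + 1) + 1) * (((n : ℝ) / 2 + 1) * Real.Gamma ((n : ℝ) / 2 + 1)) := by
    rw [Real.Gamma_add_one (by positivity), Real.Gamma_add_one (by positivity)]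
  rw [h1, h2, h3, h4, h5, h6]
  have hG : Real.Gamma ((n : ℝ) / 2 + 1) ≠ 0 := (Real.Gamma_pos_of_pos (by positivity)).ne'
  field_simp
  ring

theorem om_lower {n : ℕ} (hn : 1 ≤ n) :
    2 * (n.factorial : ℝ) ^ 2 * (2 * Real.pi) ^ (2 * n) ≤
      ((n.factorial : ℝ) * JJ n 0) ^ 4 * (Real.pi * ((n : ℝ) + 1)) := by
  have hn' : (1 : ℝ) ≤ n := by exact_mod_cast hn
  have hy : 0 < (n : ℝ) / 2 + 1 / 2 := by positivity
  have hf : (0 : ℝ) < n.factorial := by exact_mod_cast n.factorial_pos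
  set G := Real.Gamma ((n : ℝ) / 2 + 1) with hG
  set G' := Real.Gamma ((n : ℝ) / 2 + 1 / 2) with hG'
  have hG0 : 0 < G := Real.Gamma_pos_of_pos (by positivity)
  have h1 : G ^ 2 ≤ ((n : ℝ) / 2 + 1 / 2) * G' ^ 2 := by
    have h2 := Om_gamma_sq hy
    have h3 : (n : ℝ) / 2 + 1 / 2 + 1 / 2 = (n : ℝ) / 2 + 1 := by ring
    rw [h3] at h2
    exact h2
  have h4 : G' * G = (n.factorial : ℝ) * (2 ^ n)⁻¹ * √Real.pi := by
    have h5 := Real.Gamma_mul_Gamma_add_half ((n : ℝ) / 2 + 1 / 2)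
    have h3 : (n : ℝ) / 2 + 1 / 2 + 1 / 2 = (n : ℝ) / 2 + 1 := by ring
    have h6 : 2 * ((n : ℝ) / 2 + 1 / 2) = (n : ℝ) + 1 := by ring
    rw [h3, h6, Real.Gamma_nat_eq_factorial] at h5
    rw [h5]
    have h7 : (1 : ℝ) - ((n : ℝ) + 1) = -(n : ℝ) := by ring
    rw [h7, Real.rpow_neg (by norm_num), Real.rpow_natCast]
  have h8 : G ^ 4 * 4 ^ n * 2 ≤ (n.factorial : ℝ) ^ 2 * (Real.pi * ((n : ℝ) + 1)) := by
    have h9 : (G' * G) ^ 2 = (n.factorial : ℝ) ^ 2 * (4 ^ n)⁻¹ * Real.pi := by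
      rw [h4, mul_pow, mul_pow, Real.sq_sqrt Real.pi_pos.le, inv_pow, ← pow_mul, mul_comm n 2,
        pow_mul]
      norm_num
    have h10 : G ^ 4 ≤ ((n : ℝ) / 2 + 1 / 2) * ((n.factorial : ℝ) ^ 2 * (4 ^ n)⁻¹ * Real.pi) := by
      calc G ^ 4 = G ^ 2 * G ^ 2 := by ring
        _ ≤ (((n : ℝ) / 2 + 1 / 2) * G' ^ 2) * G ^ 2 :=
            mul_le_mul_of_nonneg_right h1 (sq_nonneg G)
        _ = ((n : ℝ) / 2 + 1 / 2) * (G' * G) ^ 2 := by ring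
        _ = _ := by rw [h9]
    calc G ^ 4 * 4 ^ n * 2 ≤
        (((n : ℝ) / 2 + 1 / 2) * ((n.factorial : ℝ) ^ 2 * (4 ^ n)⁻¹ * Real.pi)) * 4 ^ n * 2 := by
          gcongr
      _ = (n.factorial : ℝ) ^ 2 * (Real.pi * ((n : ℝ) + 1)) * ((4 ^ n)⁻¹ * 4 ^ n) := by ring
      _ = _ := by rw [inv_mul_cancel₀ (by positivity), mul_one]
  have hJ : (JJ n 0) ^ 4 = Real.pi ^ (2 * n) / G ^ 4 := by
    calc (JJ n 0) ^ 4 = ((JJ n 0) ^ 2) ^ 2 := by ring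
      _ = (Real.pi ^ n / G ^ 2) ^ 2 := by rw [Om_JJ0]
      _ = Real.pi ^ (2 * n) / G ^ 4 := by
        rw [div_pow, ← pow_mul, ← pow_mul, mul_comm n 2]
  rw [mul_pow (n.factorial : ℝ) (JJ n 0) 4, hJ, mul_pow 2 Real.pi]
  have h11 : (2 : ℝ) ^ (2 * n) = 4 ^ n := by
    rw [pow_mul]
    norm_num
  rw [h11]
  have h12 : (n.factorial : ℝ) ^ 4 * (Real.pi ^ (2 * n) / G ^ 4) * (Real.pi * ((n : ℝ) + 1)) =
      ((n.factorial : ℝ) ^ 2 * Real.pi ^ (2 * n)) *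
        ((n.factorial : ℝ) ^ 2 * (Real.pi * ((n : ℝ) + 1))) / G ^ 4 := by
    ring
  rw [h12, le_div_iff₀ (by positivity)]
  calc 2 * (n.factorial : ℝ) ^ 2 * (4 ^ n * Real.pi ^ (2 * n)) * G ^ 4 =
      ((n.factorial : ℝ) ^ 2 * Real.pi ^ (2 * n)) * (G ^ 4 * 4 ^ n * 2) := by ring
    _ ≤ _ := mul_le_mul_of_nonneg_left h8 (by positivity)

theorem j1_le {n : ℕ} (hn : 1 ≤ n) :
    (JJ n 1) ^ 2 * (Real.pi * ((n : ℝ) + 1)) ≤ 2 * (JJ n 0) ^ 2 := by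
  have hn' : (1 : ℝ) ≤ n := by exact_mod_cast hn
  have hy : 0 < (n : ℝ) / 2 + 1 / 2 := by positivity
  have h1 : Real.Gamma ((n : ℝ) / 2 + 1) ^ 2 ≤
      ((n : ℝ) / 2 + 1 / 2) * Real.Gamma ((n : ℝ) / 2 + 1 / 2) ^ 2 := by
    have h2 := Om_gamma_sq hy
    have h3 : (n : ℝ) / 2 + 1 / 2 + 1 / 2 = (n : ℝ) / 2 + 1 := by ring
    rw [h3] at h2
    exact h2
  have hG0 : 0 < Real.Gamma ((n : ℝ) / 2 + 1) := Real.Gamma_pos_of_pos (by positivity)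
  have hG1 : 0 < Real.Gamma ((n : ℝ) / 2 + 1 / 2) := Real.Gamma_pos_of_pos hy
  rw [← mul_assoc, Om_JJ1, Om_JJ0, Real.Gamma_add_one hy.ne']
  generalize Real.Gamma ((n : ℝ) / 2 + 1) = a at *
  generalize Real.Gamma ((n : ℝ) / 2 + 1 / 2) = b at *
  rw [div_mul_eq_mul_div, ← mul_div_assoc, div_le_div_iff₀ (by positivity) (by positivity)]
  have h5 : 0 < Real.pi ^ n := pow_pos Real.pi_pos n
  have h6 : ((n : ℝ) + 1) * a ^ 2 ≤ ((n : ℝ) + 1) * (((n : ℝ) / 2 + 1 / 2) * b ^ 2) :=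
    mul_le_mul_of_nonneg_left h1 (by positivity)
  calc Real.pi ^ n * ((n : ℝ) + 1) * a ^ 2 = Real.pi ^ n * (((n : ℝ) + 1) * a ^ 2) := by ring
    _ ≤ Real.pi ^ n * (((n : ℝ) + 1) * (((n : ℝ) / 2 + 1 / 2) * b ^ 2)) :=
        mul_le_mul_of_nonneg_left h6 h5.le
    _ = 2 * Real.pi ^ n * (((n : ℝ) / 2 + 1 / 2) * b) ^ 2 := by ring

theorem jp_le {n : ℕ} (hn : 1 ≤ n) {p : ℝ} (h2 : 2 ≤ p) (h4 : p ≤ 4) :
    JJ n p ≤ (3 / (((n : ℝ) + 2) * ((n : ℝ) + 4))) ^ (p / 4) * JJ n 0 := by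
  have hn' : (1 : ℝ) ≤ n := by exact_mod_cast hn
  set a : ℝ := 3 / (((n : ℝ) + 2) * ((n : ℝ) + 4)) with ha
  have ha0 : 0 < a := by positivity
  have hp : 0 ≤ p := by linarith
  let i0 : Fin n := ⟨0, hn⟩
  let w : Fin n → ℝ := Pi.single i0 1
  have hw : ∀ x : Fin n → ℝ, ∑ i, w i * x i = x i0 := by
    intro x
    simp only [w, Pi.single_apply, ite_mul, one_mul, zero_mul, Finset.sum_ite_eq',
      Finset.mem_univ, if_true]
  have hw2 : ∑ i, w i ^ 2 = 1 := by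
    simp only [w, Pi.single_apply, ite_pow, one_pow, ne_eq, OfNat.ofNat_ne_zero,
      not_false_eq_true, zero_pow, Finset.sum_ite_eq', Finset.mem_univ, if_true]
  have hm : ∀ q : ℝ, 0 ≤ q → ∫ x in eball n, |x i0| ^ q = JJ n q := by
    intro q hq
    have h5 := ball_moment hn hq w
    simp only [hw, hw2, Real.one_rpow, one_mul] at h5
    exact h5
  have hint : ∀ q : ℝ, 0 ≤ q → IntegrableOn (fun x : Fin n → ℝ => |x i0| ^ q) (eball n) := by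
    intro q hq
    refine ContinuousOn.integrableOn_compact (eball_compact n) (Continuous.continuousOn ?_)
    exact (continuous_abs.comp (continuous_apply i0)).rpow_const fun x => Or.inr hq
  have hpt : ∀ x : Fin n → ℝ, |x i0| ^ p ≤
      a ^ (p / 4) * (p / 4 / a * |x i0| ^ (4 : ℝ) + (1 - p / 4) * |x i0| ^ (0 : ℝ)) := by
    intro x
    have h5 : 0 ≤ |x i0| := abs_nonneg _
    have h6 := Real.geom_mean_le_arith_mean2_weighted (w₁ := p / 4) (w₂ := 1 - p / 4)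
      (p₁ := |x i0| ^ (4 : ℝ) / a) (p₂ := 1) (by positivity) (by linarith) (by positivity)
      (by norm_num) (by ring)
    rw [Real.one_rpow, mul_one, mul_one, Real.div_rpow (by positivity) ha0.le,
      ← Real.rpow_mul h5, div_le_iff₀ (Real.rpow_pos_of_pos ha0 _)] at h6
    have h7 : (4 : ℝ) * (p / 4) = p := by ring
    rw [h7] at h6
    rw [Real.rpow_zero, mul_one]
    calc |x i0| ^ p ≤ (p / 4 * (|x i0| ^ (4 : ℝ) / a) + (1 - p / 4)) * a ^ (p / 4) := h6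
      _ = _ := by ring
  have h8 : ∫ x in eball n, |x i0| ^ p ≤ ∫ x in eball n,
      a ^ (p / 4) * (p / 4 / a * |x i0| ^ (4 : ℝ) + (1 - p / 4) * |x i0| ^ (0 : ℝ)) := by
    refine integral_mono (hint p hp) ?_ hpt
    exact (((hint 4 (by norm_num)).const_mul _).add ((hint 0 le_rfl).const_mul _)).const_mul _
  rw [hm p hp, integral_const_mul, integral_add ((hint 4 (by norm_num)).const_mul _)
    ((hint 0 le_rfl).const_mul _), integral_const_mul, integral_const_mul, hm 4 (by norm_num),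
    hm 0 le_rfl, Om_JJ4, ← ha] at h8
  have h9 : a ^ (p / 4) * (p / 4 / a * (a * JJ n 0) + (1 - p / 4) * JJ n 0) =
      a ^ (p / 4) * JJ n 0 := by
    have : p / 4 / a * (a * JJ n 0) = p / 4 * JJ n 0 := by
      field_simp
    rw [this]
    ring
  rw [h9] at h8
  exact h8

end Vale.Agent.P254U
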