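import Mathlib

/-!
P254U/ZP/Ber1: the one-dimensional Berwald inequality.

Proof.  Let `b = (n+1) ∫_0^T M / M 0`.  By `hconc` with `s = T`, `M (l T) ≥ (1-l)^n M 0`, so `b ≥ T`.
Let `N t = M 0 * (1 - t/b)^n` on `[0,b]`; `∫_0^b N = ∫_0^T M` and `∫_0^b t N = M 0 b^2/((n+1)(n+2))`.
Let `t0` be the supremum of the `t ∈ [0,T]` with `M t ≥ N t` (contains `0`).  If `0 ≤ t < t0` there is
`t1 ≥ t` with `M t1 ≥ N t1` and `hconc` (with `l = t/t1`) gives `M t ^(1/n) ≥ N t ^(1/n)`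
(`N^(1/n)` is affine), so `M ≥ N` on `[0,t0)`, `M < N` on `(t0,T]`, and `0 ≤ N` on `(T,b]`.
So `∫_0^T (t - t0)(M - N) - ∫_T^b (t - t0) N ≤ 0`, i.e. `∫_0^T t M ≤ ∫_0^b t N`, which is the claim.
-/

open MeasureTheory Set

namespace Vale.Agent.P254U

private theorem Ber1_pow {n : ℕ} (hn : 1 ≤ n) {x : ℝ} (hx : 0 ≤ x) :
    (x ^ (1 / (n : ℝ))) ^ n = x := by
  rw [one_div]
  exact Real.rpow_inv_natCast_pow hx (by omega)

private theorem Ber1_int1 (n : ℕ) {b : ℝ} (hb : 0 < b) :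
    ∫ t in (0 : ℝ)..b, (1 - t / b) ^ n = b / (n + 1) := by
  have h1 : ∀ t ∈ uIcc (0 : ℝ) b,
      HasDerivAt (fun t : ℝ => -(b / (n + 1)) * (1 - t / b) ^ (n + 1)) ((1 - t / b) ^ n) t := by
    intro t _
    have h2 : HasDerivAt (fun t : ℝ => 1 - t / b) (-(1 / b)) t := by
      simpa using ((hasDerivAt_id t).div_const b).const_sub 1
    have h3 := (h2.pow (n + 1)).const_mul (-(b / (n + 1)))
    have h4 : -(b / ((n : ℝ) + 1)) * (((n + 1 : ℕ) : ℝ) * (1 - t / b) ^ (n + 1 - 1) * -(1 / b)) =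
        (1 - t / b) ^ n := by
      have h5 : ((n : ℝ) + 1) ≠ 0 := by positivity
      push_cast
      field_simp
    rw [← h4]
    exact h3
  rw [intervalIntegral.integral_eq_sub_of_hasDerivAt h1
    (Continuous.intervalIntegrable (by fun_prop) _ _)]
  rw [div_self hb.ne', sub_self, zero_pow (Nat.succ_ne_zero n), zero_div, sub_zero, one_pow]
  ring

private theorem Ber1_int2 (n : ℕ) {b : ℝ} (hb : 0 < b) :
    ∫ t in (0 : ℝ)..b, t * (1 - t / b) ^ n = b ^ 2 / ((n + 1) * (n + 2)) := by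
  have h1 : (fun t : ℝ => t * (1 - t / b) ^ n) =
      fun t => b * (1 - t / b) ^ n - b * (1 - t / b) ^ (n + 1) := by
    funext t
    have h2 : t = b - b * (1 - t / b) := by
      field_simp
      ring
    conv_lhs => rw [h2]
    rw [pow_succ]
    have h3 : 1 - (b - b * (1 - t / b)) / b = 1 - t / b := by
      field_simp
      ring
    rw [h3]
    ring
  rw [h1, intervalIntegral.integral_sub (Continuous.intervalIntegrable (by fun_prop) _ _)
    (Continuous.intervalIntegrable (by fun_prop) _ _), intervalIntegral.integral_const_mul,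
    intervalIntegral.integral_const_mul, Ber1_int1 n hb, Ber1_int1 (n + 1) hb]
  push_cast
  field_simp
  ring

theorem berwald_one (n : ℕ) (hn : 1 ≤ n) {M : ℝ → ℝ} {T : ℝ} (hT : 0 < T)
    (hanti : AntitoneOn M (Icc 0 T)) (hnn : ∀ t ∈ Icc (0 : ℝ) T, 0 ≤ M t) (hM0 : 0 < M 0)
    (hconc : ∀ s ∈ Icc (0 : ℝ) T, ∀ l ∈ Icc (0 : ℝ) 1,
      (1 - l) * M 0 ^ (1 / (n : ℝ)) + l * M s ^ (1 / (n : ℝ)) ≤ M (l * s) ^ (1 / (n : ℝ))) :
    ((n : ℝ) + 2) * M 0 * (∫ t in (0 : ℝ)..T, 2 * t * M t) ≤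
      2 * ((n : ℝ) + 1) * (∫ t in (0 : ℝ)..T, M t) ^ 2 := by
  have hMi : IntervalIntegrable M volume 0 T := by
    refine AntitoneOn.intervalIntegrable ?_
    rwa [uIcc_of_le hT.le]
  -- the integral of `M`
  obtain ⟨I, hI⟩ : ∃ I : ℝ, I = ∫ t in (0 : ℝ)..T, M t := ⟨_, rfl⟩
  have hn1 : (0 : ℝ) < (n : ℝ) + 1 := by positivity
  have hlow : ∀ t ∈ Icc (0 : ℝ) T, M 0 * (1 - t / T) ^ n ≤ M t := by
    intro t ht
    have hl : t / T ∈ Icc (0 : ℝ) 1 := ⟨div_nonneg ht.1 hT.le, (div_le_one hT).2 ht.2⟩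
    have h1 := hconc T (right_mem_Icc.2 hT.le) (t / T) hl
    rw [div_mul_cancel₀ _ hT.ne'] at h1
    have h2 : 0 ≤ t / T * M T ^ (1 / (n : ℝ)) :=
      mul_nonneg hl.1 (Real.rpow_nonneg (hnn T (right_mem_Icc.2 hT.le)) _)
    have h3 : (1 - t / T) * M 0 ^ (1 / (n : ℝ)) ≤ M t ^ (1 / (n : ℝ)) := by linarith
    have h4 : 0 ≤ (1 - t / T) * M 0 ^ (1 / (n : ℝ)) :=
      mul_nonneg (by linarith [hl.2]) (Real.rpow_nonneg hM0.le _)
    have h5 := pow_le_pow_left₀ h4 h3 n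
    rw [mul_pow, Ber1_pow hn hM0.le, Ber1_pow hn (hnn t ht)] at h5
    linarith
  have hIT : M 0 * (T / (n + 1)) ≤ I := by
    rw [← Ber1_int1 n hT, ← intervalIntegral.integral_const_mul, hI]
    refine intervalIntegral.integral_mono_on hT.le
      (Continuous.intervalIntegrable (by fun_prop) _ _) hMi fun t ht => hlow t ht
  obtain ⟨b, hb⟩ : ∃ b : ℝ, b = (n + 1) * I / M 0 := ⟨_, rfl⟩
  have hTb : T ≤ b := by
    rw [hb, le_div_iff₀ hM0]
    have h1 := mul_le_mul_of_nonneg_left hIT hn1.le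
    have h2 : ((n : ℝ) + 1) * (M 0 * (T / (n + 1))) = T * M 0 := by
      field_simp
    linarith
  have hb0 : 0 < b := lt_of_lt_of_le hT hTb
  have hIb : I = M 0 * (b / (n + 1)) := by
    rw [hb]
    field_simp
  obtain ⟨N, hN⟩ : ∃ N : ℝ → ℝ, N = fun t => M 0 * (1 - t / b) ^ n := ⟨_, rfl⟩
  have hNc : Continuous N := by
    rw [hN]
    fun_prop
  have hN0 : ∀ t, t ≤ b → 0 ≤ N t := by
    intro t ht
    rw [hN]
    have h1 : t / b ≤ 1 := (div_le_one hb0).2 ht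
    exact mul_nonneg hM0.le (pow_nonneg (by linarith) _)
  have hNi : ∫ t in (0 : ℝ)..b, N t = I := by
    rw [hN, intervalIntegral.integral_const_mul, Ber1_int1 n hb0, hIb]
  have hNi2 : ∫ t in (0 : ℝ)..b, t * N t = M 0 * (b ^ 2 / ((n + 1) * (n + 2))) := by
    rw [← Ber1_int2 n hb0, ← intervalIntegral.integral_const_mul]
    refine intervalIntegral.integral_congr fun t _ => ?_
    rw [hN]
    ring
  -- the crossing point
  obtain ⟨S, hS⟩ : ∃ S : Set ℝ, S = {t | t ∈ Icc (0 : ℝ) T ∧ N t ≤ M t} := ⟨_, rfl⟩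
  have hS0 : (0 : ℝ) ∈ S := by
    rw [hS]
    refine ⟨left_mem_Icc.2 hT.le, ?_⟩
    rw [hN]
    simp
  have hSb : BddAbove S := by
    refine ⟨T, fun t ht => ?_⟩
    rw [hS] at ht
    exact ht.1.2
  have hST : sSup S ≤ T := csSup_le ⟨0, hS0⟩ fun t ht => by
    rw [hS] at ht
    exact ht.1.2
  have hlt : ∀ t, 0 ≤ t → t < sSup S → N t ≤ M t := by
    intro t ht0 ht
    obtain ⟨t1, ht1, htt⟩ := exists_lt_of_lt_csSup ⟨0, hS0⟩ ht
    rw [hS] at ht1
    obtain ⟨ht1T, ht1N⟩ := ht1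
    have ht1p : 0 < t1 := lt_of_le_of_lt ht0 htt
    have hl : t / t1 ∈ Icc (0 : ℝ) 1 := ⟨div_nonneg ht0 ht1p.le, (div_le_one ht1p).2 htt.le⟩
    have h1 := hconc t1 ht1T (t / t1) hl
    rw [div_mul_cancel₀ _ ht1p.ne'] at h1
    have h2 : M 0 ^ (1 / (n : ℝ)) * (1 - t1 / b) ≤ M t1 ^ (1 / (n : ℝ)) := by
      have h3 : 0 ≤ 1 - t1 / b := by
        have : t1 / b ≤ 1 := (div_le_one hb0).2 (ht1T.2.trans hTb)
        linarith
      refine le_of_pow_le_pow_left₀ (by omega : n ≠ 0) (Real.rpow_nonneg (hnn t1 ht1T) _) ?_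
      rw [mul_pow, Ber1_pow hn hM0.le, Ber1_pow hn (hnn t1 ht1T)]
      rw [hN] at ht1N
      exact ht1N
    have h3 := mul_le_mul_of_nonneg_left h2 hl.1
    have htT : t ∈ Icc (0 : ℝ) T := ⟨ht0, htt.le.trans ht1T.2⟩
    have h4 : M 0 ^ (1 / (n : ℝ)) * (1 - t / b) ≤ M t ^ (1 / (n : ℝ)) := by
      have h5 : (1 - t / t1) * M 0 ^ (1 / (n : ℝ)) +
          t / t1 * (M 0 ^ (1 / (n : ℝ)) * (1 - t1 / b)) = M 0 ^ (1 / (n : ℝ)) * (1 - t / b) := by
        field_simp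
        ring
      linarith
    have h5 : 0 ≤ M 0 ^ (1 / (n : ℝ)) * (1 - t / b) := by
      refine mul_nonneg (Real.rpow_nonneg hM0.le _) ?_
      have : t / b ≤ 1 := (div_le_one hb0).2 (htT.2.trans hTb)
      linarith
    have h6 := pow_le_pow_left₀ h5 h4 n
    rw [mul_pow, Ber1_pow hn hM0.le, Ber1_pow hn (hnn t htT)] at h6
    rw [hN]
    exact h6
  have hgt : ∀ t, t ≤ T → sSup S < t → M t ≤ N t := by
    intro t htT ht
    by_contra hcon
    push Not at hcon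
    have h1 : (0 : ℝ) ≤ sSup S := le_csSup hSb hS0
    have h2 : t ∈ S := by
      rw [hS]
      exact ⟨⟨(h1.trans ht.le), htT⟩, hcon.le⟩
    exact absurd (le_csSup hSb h2) (not_le.2 ht)
  obtain ⟨c, hc⟩ : ∃ c : ℝ, c = sSup S := ⟨_, rfl⟩
  rw [← hc] at hST hlt hgt
  have hi1 : IntervalIntegrable (fun t => (t - c) * M t) volume 0 T :=
    hMi.continuousOn_mul (by fun_prop)
  have hi2 : ∀ x y, IntervalIntegrable (fun t => (t - c) * N t) volume x y := fun x y =>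
    Continuous.intervalIntegrable (by fun_prop) _ _
  have hA : ∫ t in (0 : ℝ)..T, (t - c) * M t ≤ ∫ t in (0 : ℝ)..T, (t - c) * N t := by
    refine intervalIntegral.integral_mono_on hT.le hi1 (hi2 _ _) fun t ht => ?_
    rcases lt_trichotomy t c with h | h | h
    · exact mul_le_mul_of_nonpos_left (hlt t ht.1 h) (by linarith)
    · rw [h, sub_self, zero_mul, zero_mul]
    · exact mul_le_mul_of_nonneg_left (hgt t ht.2 h) (by linarith)
  have hB : 0 ≤ ∫ t in T..b, (t - c) * N t := by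
    refine intervalIntegral.integral_nonneg hTb fun t ht => ?_
    exact mul_nonneg (by linarith [ht.1]) (hN0 t ht.2)
  have hC : (∫ t in (0 : ℝ)..T, (t - c) * N t) + ∫ t in T..b, (t - c) * N t =
      ∫ t in (0 : ℝ)..b, (t - c) * N t := intervalIntegral.integral_add_adjacent_intervals
        (hi2 _ _) (hi2 _ _)
  have hD : ∫ t in (0 : ℝ)..b, (t - c) * N t =
      (∫ t in (0 : ℝ)..b, t * N t) - c * ∫ t in (0 : ℝ)..b, N t := by
    rw [← intervalIntegral.integral_const_mul, ← intervalIntegral.integral_sub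
      (Continuous.intervalIntegrable (by fun_prop) _ _)
      (Continuous.intervalIntegrable (by fun_prop) _ _)]
    exact intervalIntegral.integral_congr fun t _ => by ring
  have hE : ∫ t in (0 : ℝ)..T, (t - c) * M t =
      (∫ t in (0 : ℝ)..T, t * M t) - c * ∫ t in (0 : ℝ)..T, M t := by
    rw [← intervalIntegral.integral_const_mul, ← intervalIntegral.integral_sub
      (hMi.continuousOn_mul (by fun_prop)) (hMi.const_mul c)]
    exact intervalIntegral.integral_congr fun t _ => by ring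
  have hF : ∫ t in (0 : ℝ)..T, t * M t ≤ M 0 * (b ^ 2 / ((n + 1) * (n + 2))) := by
    rw [hNi, hNi2] at hD
    rw [← hI] at hE
    linarith
  have hG : ∫ t in (0 : ℝ)..T, 2 * t * M t = 2 * ∫ t in (0 : ℝ)..T, t * M t := by
    rw [← intervalIntegral.integral_const_mul]
    exact intervalIntegral.integral_congr fun t _ => by ring
  rw [hG, ← hI]
  have hn2 : (0 : ℝ) < (n : ℝ) + 2 := by positivity
  have h1 := mul_le_mul_of_nonneg_left hF (by positivity : (0 : ℝ) ≤ 2 * (((n : ℝ) + 2) * M 0))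
  have h2 : 2 * (((n : ℝ) + 2) * M 0) * (M 0 * (b ^ 2 / ((n + 1) * (n + 2)))) =
      2 * ((n : ℝ) + 1) * I ^ 2 := by
    rw [hIb]
    field_simp
  rw [← h2]
  linarith

end Vale.Agent.P254U
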