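import Vale.Agent.Lib.P254U.ZP.RevA
import Vale.Agent.Lib.P254U.ZP.Ber1

/-!
P254U/ZP/RevB: the sharp reverse Hoelder inequality for linear functionals on symmetric bodies.

Proof.  `w = 0` is trivial.  Let `T = max_K ℓ > 0`, attained at `z ∈ K`.  `M t = tailV K w t` is
antitone and `M 0 = |K|/2 > 0` (`tail_zero`).  `hconc` of `berwald_one`: if `M s > 0` it is
`tail_bm`; if `M s = 0`: for `0 < l < 1`, `(1-l) x + l z ∈ tailS K w (l T)` for
`x ∈ tailS K w 0`, so `M (l s) ≥ M (l T) ≥ (1-l)^n M 0` (`s ≤ T`; volume of a homothetic copy).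
Then `tail_layer1`, `tail_layer2`.
-/

open MeasureTheory Set

namespace Vale.Agent.P254U

variable {n : ℕ}

private theorem RevB_fin {K : Set (Fin n → ℝ)} (hK : ConvBody n K) (w : Fin n → ℝ) (t : ℝ) :
    volume (tailS K w t) ≠ ⊤ :=
  ne_top_of_le_ne_top hK.compact.measure_lt_top.ne (measure_mono fun _ hx => hx.1)

private theorem RevB_anti {K : Set (Fin n → ℝ)} (hK : ConvBody n K) (w : Fin n → ℝ) {s t : ℝ}
    (h : s ≤ t) : tailV K w t ≤ tailV K w s :=
  ENNReal.toReal_mono (RevB_fin hK w s) (measure_mono fun _ hx => ⟨hx.1, h.trans hx.2⟩)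

private theorem RevB_vol_pos {K : Set (Fin n → ℝ)} (hK : ConvBody n K) :
    0 < (volume K).toReal := by
  refine ENNReal.toReal_pos (ne_of_gt ?_) hK.compact.measure_lt_top.ne
  exact (isOpen_interior.measure_pos volume hK.interior_nonempty).trans_le
    (measure_mono interior_subset)

/-- a homothetic copy of the half body in the tail -/
private theorem RevB_homo {K : Set (Fin n → ℝ)} (hK : ConvBody n K) (w : Fin n → ℝ) {T : ℝ}
    {z : Fin n → ℝ} (hz : z ∈ K) (hzT : ∑ i, w i * z i = T) {l : ℝ} (h0 : 0 < l) (h1 : l < 1) :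
    (1 - l) ^ n * tailV K w 0 ≤ tailV K w (l * T) := by
  have hsub : (AffineMap.homothety z (1 - l) : (Fin n → ℝ) →ᵃ[ℝ] (Fin n → ℝ)) '' tailS K w 0 ⊆
      tailS K w (l * T) := by
    rintro _ ⟨x, hx, rfl⟩
    have hx' : (AffineMap.homothety z (1 - l) : (Fin n → ℝ) →ᵃ[ℝ] (Fin n → ℝ)) x =
        (1 - l) • x + l • z := by
      rw [AffineMap.homothety_apply]
      simp only [vsub_eq_sub, vadd_eq_add, smul_sub]
      module
    rw [hx']
    refine ⟨hK.convex hx.1 hz (by linarith) h0.le (by ring), ?_⟩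
    have h2 : ∑ i, w i * ((1 - l) • x + l • z) i =
        (1 - l) * ∑ i, w i * x i + l * ∑ i, w i * z i := by
      rw [Finset.mul_sum, Finset.mul_sum, ← Finset.sum_add_distrib]
      refine Finset.sum_congr rfl fun i _ => ?_
      simp only [Pi.add_apply, Pi.smul_apply, smul_eq_mul]
      ring
    rw [h2, hzT]
    have h3 : 0 ≤ (1 - l) * ∑ i, w i * x i := mul_nonneg (by linarith) hx.2
    linarith
  have h3 := measure_mono (μ := volume) hsub
  rw [Measure.addHaar_image_homothety] at h3
  have h4 := ENNReal.toReal_mono (RevB_fin hK w (l * T)) h3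
  rw [ENNReal.toReal_mul, ENNReal.toReal_ofReal (abs_nonneg _), Module.finrank_fin_fun,
    abs_of_nonneg (pow_nonneg (by linarith) n)] at h4
  exact h4

theorem rev_holder (hn : 1 ≤ n) {K : Set (Fin n → ℝ)} (hK : ConvBody n K)
    (hs : ∀ x ∈ K, -x ∈ K) (w : Fin n → ℝ) :
    ((n : ℝ) + 2) * (volume K).toReal * (∫ x in K, (∑ i, w i * x i) ^ 2) ≤
      2 * ((n : ℝ) + 1) * (∫ x in K, |∑ i, w i * x i|) ^ 2 := by
  by_cases hw : w = 0
  · subst hw
    simp
  have hn0 : (0 : ℝ) < (n : ℝ) := by exact_mod_cast hn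
  have hV := RevB_vol_pos hK
  have hz0 := tail_zero hK hs hw
  have hM0 : 0 < tailV K w 0 := by linarith
  have hne : K.Nonempty := hK.interior_nonempty.mono interior_subset
  have hcont : Continuous fun x : Fin n → ℝ => ∑ i, w i * x i := by fun_prop
  obtain ⟨z, hz, hmax⟩ := hK.compact.exists_isMaxOn hne hcont.continuousOn
  obtain ⟨T, hTz⟩ : ∃ T, ∑ i, w i * z i = T := ⟨_, rfl⟩
  have hT : ∀ x ∈ K, ∑ i, w i * x i ≤ T := by
    intro x hx
    rw [← hTz]
    exact hmax hx
  have hneg : ∀ x : Fin n → ℝ, ∑ i, w i * (-x) i = -∑ i, w i * x i := by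
    intro x
    rw [← Finset.sum_neg_distrib]
    refine Finset.sum_congr rfl fun i _ => ?_
    rw [Pi.neg_apply, mul_neg]
  have hT0 : 0 < T := by
    by_contra hcon
    have hall : tailS K w 0 = K := by
      refine subset_antisymm (fun x hx => hx.1) fun x hx => ⟨hx, ?_⟩
      have h1 := hT (-x) (hs x hx)
      rw [hneg] at h1
      linarith [not_lt.1 hcon]
    have h2 : tailV K w 0 = (volume K).toReal := by
      unfold tailV
      rw [hall]
    linarith
  have hpos : (0 : ℝ) < 1 / (n : ℝ) := by positivity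
  have key := berwald_one n hn (M := tailV K w) hT0
    (fun s _ t _ h => RevB_anti hK w h) (fun t _ => ENNReal.toReal_nonneg) hM0
    (by
      intro s hs' l hl
      rcases eq_or_lt_of_le hl.1 with h0 | h0
      · subst h0
        simp
      rcases eq_or_lt_of_le hl.2 with h1 | h1
      · subst h1
        simp
      have hMs : 0 ≤ tailV K w s := ENNReal.toReal_nonneg
      rcases eq_or_lt_of_le hMs with h2 | h2
      · rw [← h2, Real.zero_rpow hpos.ne', mul_zero, add_zero]
        have h3 : (1 - l) ^ n * tailV K w 0 ≤ tailV K w (l * s) :=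
          (RevB_homo hK w hz hTz h0 h1).trans
            (RevB_anti hK w (mul_le_mul_of_nonneg_left hs'.2 h0.le))
        have h4 : (0 : ℝ) ≤ 1 - l := by linarith
        have h5 := Real.rpow_le_rpow (mul_nonneg (pow_nonneg h4 n) hM0.le) h3 hpos.le
        rw [Real.mul_rpow (pow_nonneg h4 n) hM0.le, ← Real.rpow_natCast, ← Real.rpow_mul h4,
          mul_one_div_cancel hn0.ne', Real.rpow_one] at h5
        exact h5
      · have h3 := tail_bm hn hK w h0 h1 hM0 h2
        rw [mul_zero, zero_add] at h3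
        exact h3)
  rw [tail_layer1 hK hs w hT, tail_layer2 hK hs w hT, ← hz0]
  nlinarith [key]

end Vale.Agent.P254U
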