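import Vale.Agent.Lib.P254U.ZP.Comp
import Vale.Agent.Lib.P254U.ZP.RevB
import Vale.Agent.Lib.P254U.ZP.Om
import Vale.Agent.Lib.P254U.ZP.Num

/-!
P254U/ZP/Main: bodies defined by `L_p` norms.

`Rat K = (n+1)^(n+1) (n+2)^n det Σ / (n! V)^2 = (n+1)^(n+1) (n+2)^n / ((n!)^2 J_0^2 R^(2n))`
(from `R^(2n) det Σ J_0^2 = V^2`; `det_covM_eq_Rat` in FS/RatSum).
`p = 1`, `a = ((n+2)/(2(n+1)))^(1/2)`: `hmom` is `rev_holder` with `covM_form_sym` (square root).
Then `c R J_1 ≥ a J_0`, `c^2 R^2 ≥ a^2 J_0^2/J_1^2 ≥ a^2 π (n+1)/2 = π (n+2)/4` (`j1_le`), so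
`Rat K ≤ (n+1)^(n+1) 4^n c^(2n) / ((n!)^2 J_0^2 π^n)`; by `om_lower`
`(n! J_0)^4 ≥ 2 (n!)^2 (2π)^(2n) / (π (n+1))`, and `Rat K < 1` follows from (squares)
`(n+1)^(2n+2) 16^n c^(4n) π (n+1) < 2 (n!)^2 (2π)^(2n) π^(2n)`, i.e. `hnum` (`16^n/4^n = 4^n`).
`2 ≤ p ≤ 4`, `a = 1`: `hmom` is Jensen / Hoelder: `(mean |ℓ|^2)^(p/2) ≤ mean |ℓ|^p`.
Then `R^p ≥ J_0 / J_p ≥ (3/((n+2)(n+4)))^(-p/4)`, so `R^4 ≥ (n+2)(n+4)/3`,
`Rat K^2 ≤ (n+1)^(2n+2) (n+2)^(2n) 3^n / ((n! J_0)^4 ((n+2)(n+4))^n) < 1` by `om_lower`, `num_b`.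
`SIC` from `Rat K < 1`: `sic_iff`.
-/

open MeasureTheory Set

namespace Vale.Agent.P254U

variable {n : ℕ}

private theorem main_ell_cont (w : Fin n → ℝ) : Continuous fun x : Fin n → ℝ => ∑ i, w i * x i := by
  fun_prop

private theorem main_intOn {K : Set (Fin n → ℝ)} (hK : ConvBody n K) {g : (Fin n → ℝ) → ℝ}
    (hg : Continuous g) : IntegrableOn g K volume :=
  hg.continuousOn.integrableOn_compact hK.compact

theorem rat_eq_of_R (hn : 1 ≤ n) {K : Set (Fin n → ℝ)} (hK : ConvBody n K) {R : ℝ} (hR : 0 < R)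
    (h : R ^ (2 * n) * (covM K).det * (JJ n 0) ^ 2 = (volume K).toReal ^ 2) :
    Rat K = ((n : ℝ) + 1) ^ (n + 1) * ((n : ℝ) + 2) ^ n /
      (((n.factorial : ℝ) * JJ n 0) ^ 2 * R ^ (2 * n)) := by
  have hV : 0 < (volume K).toReal := convBody_vol_pos hK
  have h1 := det_covM_eq_Rat hK
  have hf : (0 : ℝ) < (n.factorial : ℝ) := by exact_mod_cast Nat.factorial_pos n
  have hR2 : (0 : ℝ) < R ^ (2 * n) := by positivity
  have hJ : JJ n 0 ≠ 0 := by
    intro hJ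
    rw [hJ] at h
    have : (0 : ℝ) < (volume K).toReal ^ 2 := by positivity
    rw [← h] at this
    simp at this
  rw [← h] at h1
  have hdet : (covM K).det ≠ 0 := by
    intro hd
    rw [hd] at h
    have : (0 : ℝ) < (volume K).toReal ^ 2 := by positivity
    rw [← h] at this
    simp at this
  have e1 : ((n : ℝ) + 1) ≠ 0 := by positivity
  have e2 : ((n : ℝ) + 2) ≠ 0 := by positivity
  have h2 : (covM K).det / (R ^ (2 * n) * (covM K).det * JJ n 0 ^ 2) =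
      1 / (R ^ (2 * n) * JJ n 0 ^ 2) := by
    field_simp
  rw [h2] at h1
  have h3 : Rat K = 1 / (R ^ (2 * n) * JJ n 0 ^ 2) /
      ((n.factorial : ℝ) ^ 2 / (((n : ℝ) + 1) ^ (n + 1) * ((n : ℝ) + 2) ^ n)) := by
    rw [h1]
    have : ((n.factorial : ℝ) ^ 2 / (((n : ℝ) + 1) ^ (n + 1) * ((n : ℝ) + 2) ^ n)) ≠ 0 := by
      positivity
    field_simp
  rw [h3]
  field_simp

theorem moment_one (hn : 1 ≤ n) {K : Set (Fin n → ℝ)} (hK : ConvBody n K)
    (hs : ∀ x ∈ K, -x ∈ K) (w : Fin n → ℝ) :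
    Real.sqrt (((n : ℝ) + 2) / (2 * ((n : ℝ) + 1))) * (w ⬝ᵥ (covM K).mulVec w) ^ ((1 : ℝ) / 2) *
      (volume K).toReal ≤ ∫ x in K, |∑ i, w i * x i| ^ (1 : ℝ) := by
  have hV : 0 < (volume K).toReal := convBody_vol_pos hK
  have h1 := rev_holder hn hK hs w
  rw [covM_form_sym hK hs w]
  simp only [Real.rpow_one]
  rw [← Real.sqrt_eq_rpow]
  set A := ∫ x in K, (∑ i, w i * x i) ^ 2 with hA
  set B := ∫ x in K, |∑ i, w i * x i| with hB
  have hA0 : 0 ≤ A := integral_nonneg fun x => by positivity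
  have hB0 : 0 ≤ B := integral_nonneg fun x => abs_nonneg _
  have hnn : (0 : ℝ) ≤ n := Nat.cast_nonneg n
  have e1 : (0 : ℝ) ≤ ((n : ℝ) + 2) / (2 * ((n : ℝ) + 1)) := by positivity
  have e2 : (0 : ℝ) ≤ A / (volume K).toReal := by positivity
  refine le_of_pow_le_pow_left₀ two_ne_zero hB0 ?_
  rw [mul_pow, mul_pow, Real.sq_sqrt e1, Real.sq_sqrt e2]
  have e3 : ((n : ℝ) + 2) / (2 * ((n : ℝ) + 1)) * (A / (volume K).toReal) *
      (volume K).toReal ^ 2 = (((n : ℝ) + 2) * (volume K).toReal * A) / (2 * ((n : ℝ) + 1)) := by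
    field_simp
  rw [e3, div_le_iff₀ (by positivity)]
  linarith

theorem moment_two (hn : 1 ≤ n) {K : Set (Fin n → ℝ)} (hK : ConvBody n K)
    (hs : ∀ x ∈ K, -x ∈ K) {p : ℝ} (hp : 2 ≤ p) (w : Fin n → ℝ) :
    1 * (w ⬝ᵥ (covM K).mulVec w) ^ (p / 2) * (volume K).toReal ≤
      ∫ x in K, |∑ i, w i * x i| ^ p := by
  have hV : 0 < (volume K).toReal := convBody_vol_pos hK
  rw [covM_form_sym hK hs w, one_mul]
  have hfin : IsFiniteMeasure (volume.restrict K) := ⟨by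
    rw [Measure.restrict_apply_univ]; exact hK.compact.measure_lt_top⟩
  have hne : NeZero (volume.restrict K) := ⟨by
    intro h0
    have h1 : volume K = 0 := by
      rw [← Measure.restrict_apply_univ, h0]; simp
    rw [h1] at hV
    simp at hV⟩
  have hpc : Continuous fun x : Fin n → ℝ => ((∑ i, w i * x i) ^ 2) ^ (p / 2) :=
    Continuous.rpow_const ((main_ell_cont w).pow 2) fun x => Or.inr (by linarith)
  have hcv : ConvexOn ℝ (Ici (0 : ℝ)) fun x : ℝ => x ^ (p / 2) :=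
    convexOn_rpow (show (1 : ℝ) ≤ p / 2 by linarith)
  have key := hcv.map_average_le (μ := volume.restrict K) (f := fun x : Fin n → ℝ => (∑ i, w i * x i) ^ 2)
    (Real.continuous_rpow_const (by linarith)).continuousOn isClosed_Ici
    (Filter.Eventually.of_forall fun x => by simp [sq_nonneg])
    (main_intOn hK ((main_ell_cont w).pow 2))
    (main_intOn hK hpc)
  rw [average_eq, average_eq] at key
  simp only [smul_eq_mul] at key
  have hreal : (volume.restrict K).real univ = (volume K).toReal := by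
    rw [Measure.real, Measure.restrict_apply_univ]
  rw [hreal] at key
  have e1 : ∀ x : Fin n → ℝ, ((∑ i, w i * x i) ^ 2) ^ (p / 2) = |∑ i, w i * x i| ^ p := by
    intro x
    rw [← sq_abs, ← Real.rpow_natCast, ← Real.rpow_mul (abs_nonneg _)]
    congr 1
    push_cast
    ring
  simp only [e1] at key
  rw [div_eq_inv_mul]
  calc ((volume K).toReal⁻¹ * ∫ x in K, (∑ i, w i * x i) ^ 2) ^ (p / 2) * (volume K).toReal
      ≤ ((volume K).toReal⁻¹ * ∫ x in K, |∑ i, w i * x i| ^ p) * (volume K).toReal :=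
        mul_le_mul_of_nonneg_right key hV.le
    _ = ∫ x in K, |∑ i, w i * x i| ^ p := by field_simp

theorem rat_l1 (hn : 1 ≤ n) {K : Set (Fin n → ℝ)} (hK : ConvBody n K)
    (hs : ∀ x ∈ K, -x ∈ K) {Ω : Type*}
    [MeasurableSpace Ω] (μ : Measure Ω) [SFinite μ] {f : Ω → (Fin n → ℝ)} (hf : Measurable f)
    {c : ℝ} (hc : 1 ≤ c) (h1 : ∀ x ∈ K, PhiP μ f 1 x ≤ 1)
    (h2 : ∀ x, x ∉ K → 1 ≤ ENNReal.ofReal c * PhiP μ f 1 x)
    (hnum : c ^ (4 * n) * (((n : ℝ) + 1) ^ (2 * n + 3) * Real.pi * 4 ^ n) <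
      2 * (n.factorial : ℝ) ^ 2 * (Real.pi ^ 4) ^ n) : Rat K < 1 := by
  have hnn : (0 : ℝ) ≤ n := Nat.cast_nonneg n
  have hsq : 0 < Real.sqrt (((n : ℝ) + 2) / (2 * ((n : ℝ) + 1))) := by positivity
  obtain ⟨R, hR, hdet, hcmp⟩ := zp_comp hn hK μ hf (le_refl (1 : ℝ)) hc h1 h2 hsq
    (fun w => moment_one hn hK hs w)
  rw [rat_eq_of_R hn hK hR hdet]
  have hV : 0 < (volume K).toReal := convBody_vol_pos hK
  have hJ0 : 0 < JJ n 0 := by
    unfold JJ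
    have : 0 < Real.Gamma ((0 + 1) / 2) := Real.Gamma_pos_of_pos (by norm_num)
    have : 0 < Real.Gamma (((n : ℝ) + 0) / 2 + 1) := Real.Gamma_pos_of_pos (by positivity)
    positivity
  have hf' : (0 : ℝ) < (n.factorial : ℝ) := by exact_mod_cast Nat.factorial_pos n
  rw [Real.rpow_one] at hcmp
  set J0 := JJ n 0 with hJ0def
  set J1 := JJ n 1 with hJ1def
  set s := Real.sqrt (((n : ℝ) + 2) / (2 * ((n : ℝ) + 1))) with hsdef
  have hs2 : s ^ 2 = ((n : ℝ) + 2) / (2 * ((n : ℝ) + 1)) := Real.sq_sqrt (by positivity)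
  have hj1 := j1_le hn
  rw [← hJ0def, ← hJ1def] at hj1
  -- squares
  have hsq1 : (s * J0) ^ 2 ≤ (c * (R * J1)) ^ 2 := pow_le_pow_left₀ (by positivity) hcmp 2
  have hstep : Real.pi * ((n : ℝ) + 2) ≤ 4 * (c ^ 2 * R ^ 2) := by
    have e1 : s ^ 2 * J0 ^ 2 * (Real.pi * ((n : ℝ) + 1)) ≤
        c ^ 2 * R ^ 2 * (2 * J0 ^ 2) := by
      calc s ^ 2 * J0 ^ 2 * (Real.pi * ((n : ℝ) + 1))
          = (s * J0) ^ 2 * (Real.pi * ((n : ℝ) + 1)) := by ring
        _ ≤ (c * (R * J1)) ^ 2 * (Real.pi * ((n : ℝ) + 1)) :=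
            mul_le_mul_of_nonneg_right hsq1 (by positivity)
        _ = c ^ 2 * R ^ 2 * (J1 ^ 2 * (Real.pi * ((n : ℝ) + 1))) := by ring
        _ ≤ c ^ 2 * R ^ 2 * (2 * J0 ^ 2) := mul_le_mul_of_nonneg_left hj1 (by positivity)
    rw [hs2] at e1
    have e2 : ((n : ℝ) + 2) / (2 * ((n : ℝ) + 1)) * J0 ^ 2 * (Real.pi * ((n : ℝ) + 1)) =
        J0 ^ 2 * (Real.pi * ((n : ℝ) + 2) / 2) := by
      field_simp
    rw [e2] at e1
    have e3 : J0 ^ 2 * (Real.pi * ((n : ℝ) + 2) / 2) ≤ J0 ^ 2 * (2 * (c ^ 2 * R ^ 2)) := by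
      linarith
    have e4 := le_of_mul_le_mul_left e3 (by positivity)
    linarith
  have hpow : (Real.pi * ((n : ℝ) + 2)) ^ n ≤ (4 * (c ^ 2 * R ^ 2)) ^ n :=
    pow_le_pow_left₀ (by positivity) hstep n
  have hom := om_lower hn
  rw [← hJ0def] at hom
  set X := (n.factorial : ℝ) * J0 with hX
  have hX0 : 0 < X := by positivity
  have hpi := Real.pi_pos
  -- main inequality `(n+1)^(n+1) 4^n c^(2n) < X^2 π^n`
  have hmain : ((n : ℝ) + 1) ^ (n + 1) * (4 ^ n * c ^ (2 * n)) < X ^ 2 * Real.pi ^ n := by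
    apply lt_of_pow_lt_pow_left₀ 2 (by positivity)
    have e1 : (((n : ℝ) + 1) ^ (n + 1) * (4 ^ n * c ^ (2 * n))) ^ 2 * (Real.pi * ((n : ℝ) + 1)) =
        4 ^ n * (c ^ (4 * n) * (((n : ℝ) + 1) ^ (2 * n + 3) * Real.pi * 4 ^ n)) := by
      rw [show 4 * n = 2 * n + 2 * n by ring, show 2 * n + 3 = (n + 1) + (n + 1) + 1 by ring]
      simp only [pow_add, pow_one]
      ring
    have e2 : 4 ^ n * (2 * (n.factorial : ℝ) ^ 2 * (Real.pi ^ 4) ^ n) ≤
        (X ^ 2 * Real.pi ^ n) ^ 2 * (Real.pi * ((n : ℝ) + 1)) := by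
      calc (4 : ℝ) ^ n * (2 * (n.factorial : ℝ) ^ 2 * (Real.pi ^ 4) ^ n)
          = (2 * (n.factorial : ℝ) ^ 2 * (2 * Real.pi) ^ (2 * n)) * (Real.pi ^ n) ^ 2 := by
            rw [mul_pow, pow_mul, pow_mul, ← pow_mul Real.pi 4 n, show 4 * n = n + n + (n + n) by ring]
            simp only [pow_add, ← pow_mul]
            rw [show 2 * n = n + n by ring, pow_add, show (4 : ℝ) = 2 * 2 by norm_num, mul_pow]
            ring
        _ ≤ (X ^ 4 * (Real.pi * ((n : ℝ) + 1))) * (Real.pi ^ n) ^ 2 :=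
            mul_le_mul_of_nonneg_right hom (by positivity)
        _ = (X ^ 2 * Real.pi ^ n) ^ 2 * (Real.pi * ((n : ℝ) + 1)) := by ring
    have e3 : (((n : ℝ) + 1) ^ (n + 1) * (4 ^ n * c ^ (2 * n))) ^ 2 * (Real.pi * ((n : ℝ) + 1)) <
        (X ^ 2 * Real.pi ^ n) ^ 2 * (Real.pi * ((n : ℝ) + 1)) := by
      rw [e1]
      exact lt_of_lt_of_le (mul_lt_mul_of_pos_left hnum (by positivity)) e2
    exact lt_of_mul_lt_mul_right e3 (by positivity)
  rw [div_lt_one (by positivity)]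
  have e5 : (((n : ℝ) + 1) ^ (n + 1) * ((n : ℝ) + 2) ^ n) * Real.pi ^ n <
      (X ^ 2 * R ^ (2 * n)) * Real.pi ^ n := by
    calc (((n : ℝ) + 1) ^ (n + 1) * ((n : ℝ) + 2) ^ n) * Real.pi ^ n
        = ((n : ℝ) + 1) ^ (n + 1) * (Real.pi * ((n : ℝ) + 2)) ^ n := by rw [mul_pow]; ring
      _ ≤ ((n : ℝ) + 1) ^ (n + 1) * (4 * (c ^ 2 * R ^ 2)) ^ n :=
          mul_le_mul_of_nonneg_left hpow (by positivity)
      _ = (((n : ℝ) + 1) ^ (n + 1) * (4 ^ n * c ^ (2 * n))) * R ^ (2 * n) := by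
          rw [mul_pow, mul_pow, ← pow_mul, ← pow_mul]; ring
      _ < (X ^ 2 * Real.pi ^ n) * R ^ (2 * n) := mul_lt_mul_of_pos_right hmain (by positivity)
      _ = (X ^ 2 * R ^ (2 * n)) * Real.pi ^ n := by ring
  exact lt_of_mul_lt_mul_right e5 (by positivity)

theorem rat_lp (hn : 6 ≤ n) {K : Set (Fin n → ℝ)} (hK : ConvBody n K) {Ω : Type*}
    [MeasurableSpace Ω] (μ : Measure Ω) [SFinite μ] {f : Ω → (Fin n → ℝ)} (hf : Measurable f)
    {p : ℝ} (h2 : 2 ≤ p) (h4 : p ≤ 4) (h : ∀ x, x ∈ K ↔ PhiP μ f p x ≤ 1) : Rat K < 1 := by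
  have hn1 : 1 ≤ n := by omega
  have hnn : (0 : ℝ) ≤ n := Nat.cast_nonneg n
  have hs : ∀ x ∈ K, -x ∈ K := by
    intro x hx
    rw [h] at hx ⊢
    have : PhiP μ f p (-x) = PhiP μ f p x := by
      unfold PhiP
      congr 1
      funext ω
      have : ∑ i, (-x) i * f ω i = -∑ i, x i * f ω i := by
        rw [← Finset.sum_neg_distrib]
        exact Finset.sum_congr rfl fun i _ => by rw [Pi.neg_apply]; ring
      rw [this, abs_neg]
    rw [this]
    exact hx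
  obtain ⟨R, hR, hdet, hcmp⟩ := zp_comp hn1 hK μ hf (by linarith : (1 : ℝ) ≤ p) (le_refl (1 : ℝ))
    (fun x hx => (h x).1 hx)
    (fun x hx => by
      rw [ENNReal.ofReal_one, one_mul]
      exact (not_le.1 (fun hc => hx ((h x).2 hc))).le)
    one_pos (fun w => moment_two hn1 hK hs h2 w)
  rw [rat_eq_of_R hn1 hK hR hdet]
  have hJ0 : 0 < JJ n 0 := by
    unfold JJ
    have : 0 < Real.Gamma ((0 + 1) / 2) := Real.Gamma_pos_of_pos (by norm_num)
    have : 0 < Real.Gamma (((n : ℝ) + 0) / 2 + 1) := Real.Gamma_pos_of_pos (by positivity)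
    positivity
  have hf' : (0 : ℝ) < (n.factorial : ℝ) := by exact_mod_cast Nat.factorial_pos n
  have hpi := Real.pi_pos
  rw [one_mul, one_mul] at hcmp
  have hjp := jp_le hn1 h2 h4
  set J0 := JJ n 0 with hJ0def
  have hp0 : 0 < p := by linarith
  have hstep : ((n : ℝ) + 2) * ((n : ℝ) + 4) ≤ 3 * R ^ 4 := by
    set q := 3 / (((n : ℝ) + 2) * ((n : ℝ) + 4)) with hq
    have hq0 : 0 < q := by positivity
    have e1 : J0 * 1 ≤ J0 * (R ^ p * q ^ (p / 4)) := by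
      calc J0 * 1 ≤ R ^ p * JJ n p := by rw [mul_one]; exact hcmp
        _ ≤ R ^ p * (q ^ (p / 4) * J0) := mul_le_mul_of_nonneg_left hjp (by positivity)
        _ = J0 * (R ^ p * q ^ (p / 4)) := by ring
    have e2 : 1 ≤ R ^ p * q ^ (p / 4) := le_of_mul_le_mul_left e1 hJ0
    have e3 : R ^ p * q ^ (p / 4) = (R ^ 4 * q) ^ (p / 4) := by
      rw [Real.mul_rpow (by positivity) hq0.le, ← Real.rpow_natCast R 4, ← Real.rpow_mul hR.le]
      congr 2
      push_cast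
      ring
    rw [e3] at e2
    have e4 : 1 ≤ R ^ 4 * q := by
      by_contra hc
      push Not at hc
      have := Real.rpow_lt_one (by positivity) hc (show 0 < p / 4 by positivity)
      linarith
    rw [hq, mul_div_assoc', le_div_iff₀ (by positivity)] at e4
    linarith
  have hpow : (((n : ℝ) + 2) * ((n : ℝ) + 4)) ^ n ≤ (3 * R ^ 4) ^ n :=
    pow_le_pow_left₀ (by positivity) hstep n
  have hom := om_lower hn1
  rw [← hJ0def] at hom
  have hnb := num_b hn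
  set X := (n.factorial : ℝ) * J0 with hX
  have hX0 : 0 < X := by positivity
  rw [div_lt_one (by positivity)]
  apply lt_of_pow_lt_pow_left₀ 2 (by positivity)
  have hpos : 0 < (3 : ℝ) ^ n * (Real.pi * ((n : ℝ) + 1)) := by positivity
  have e5 : (((n : ℝ) + 1) ^ (n + 1) * ((n : ℝ) + 2) ^ n) ^ 2 *
      (3 ^ n * (Real.pi * ((n : ℝ) + 1))) <
      (X ^ 2 * R ^ (2 * n)) ^ 2 * (3 ^ n * (Real.pi * ((n : ℝ) + 1))) := by
    calc (((n : ℝ) + 1) ^ (n + 1) * ((n : ℝ) + 2) ^ n) ^ 2 * (3 ^ n * (Real.pi * ((n : ℝ) + 1)))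
        = (((n : ℝ) + 1) ^ (2 * n + 3) * Real.pi * (3 * ((n : ℝ) + 2)) ^ n) *
            ((n : ℝ) + 2) ^ n := by
          rw [show 2 * n + 3 = (n + 1) + (n + 1) + 1 by ring, mul_pow (3 : ℝ)]
          simp only [pow_add, pow_one]
          ring
      _ < (2 * (n.factorial : ℝ) ^ 2 * (2 * Real.pi) ^ (2 * n) * ((n : ℝ) + 4) ^ n) *
            ((n : ℝ) + 2) ^ n := mul_lt_mul_of_pos_right hnb (by positivity)
      _ = (2 * (n.factorial : ℝ) ^ 2 * (2 * Real.pi) ^ (2 * n)) *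
            (((n : ℝ) + 2) * ((n : ℝ) + 4)) ^ n := by rw [mul_pow ((n : ℝ) + 2)]; ring
      _ ≤ (X ^ 4 * (Real.pi * ((n : ℝ) + 1))) * (3 * R ^ 4) ^ n :=
          mul_le_mul hom hpow (by positivity) (by positivity)
      _ = (X ^ 2 * R ^ (2 * n)) ^ 2 * (3 ^ n * (Real.pi * ((n : ℝ) + 1))) := by
          rw [mul_pow (3 : ℝ), ← pow_mul R 4 n, mul_pow (X ^ 2), ← pow_mul R (2 * n) 2,
            show 4 * n = 2 * n * 2 by ring]
          ring
  exact lt_of_mul_lt_mul_right e5 hpos.le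

end Vale.Agent.P254U
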