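import Vale.Agent.Lib.P254U.ZP.Defs

/-!
P254U/ZP/BallB: Gaussian moments of linear functionals.

`w = 0`: both sides are `0` if `p > 0`, and for `p = 0` (any `w`) both sides are
`∫ exp(-|x|^2) = π^(n/2)` (`Real.Gamma_one_half_eq`, product of one-dimensional Gaussian integrals).
`w ≠ 0`: rotation invariance.  Let `u = w/|w|`, `e` the basis vector with index `⟨0, hn⟩`, `U` a linear
isometry of `EuclideanSpace ℝ (Fin n)` with `U e = u` (orthonormal basis containing `u`, e.g.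
`Orthonormal.exists_orthonormalBasis_extension_of_card_eq`); `U` and
`EuclideanSpace.volume_preserving_symm_measurableEquiv_toLp` (or the current name) preserve the volume
and `∑ x_i^2`, so `∫ |⟨x,w⟩|^p exp(-|x|^2) = |w|^p ∫ |x_0|^p exp(-|x|^2)`, which is a product
(`integral_fintype_prod_volume_eq_prod` or similar) of `∫ |t|^p exp(-t^2) = Γ((p+1)/2)`
(`integral_comp_abs`, `integral_rpow_mul_exp_neg_rpow`) and `n - 1` factors `∫ exp(-t^2) = π^(1/2)`.
-/

open MeasureTheory Set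

namespace Vale.Agent.P254U

variable {n : ℕ}

private theorem ballB_one {p : ℝ} (hp : 0 ≤ p) :
    ∫ t : ℝ, |t| ^ p * Real.exp (-t ^ 2) = Real.Gamma ((p + 1) / 2) := by
  have h1 := integral_comp_abs (f := fun t : ℝ => t ^ p * Real.exp (-t ^ 2))
  have h2 : ∀ t : ℝ, |t| ^ p * Real.exp (-|t| ^ 2) = |t| ^ p * Real.exp (-t ^ 2) := fun t => by
    rw [sq_abs]
  simp only [h2] at h1
  rw [h1]
  have h3 := integral_rpow_mul_exp_neg_rpow (p := 2) (q := p) two_pos (by linarith)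
  simp only [Real.rpow_two] at h3
  rw [h3]
  ring

private theorem ballB_zero : ∫ t : ℝ, Real.exp (-t ^ 2) = Real.pi ^ (1 / 2 : ℝ) := by
  have h := integral_gaussian 1
  simp only [neg_mul, one_mul, div_one] at h
  rw [h, Real.sqrt_eq_rpow]

/-- the moment of a coordinate -/
private theorem ballB_coord (i₀ : Fin n) {p : ℝ} (hp : 0 ≤ p) :
    ∫ x : Fin n → ℝ, |x i₀| ^ p * Real.exp (-∑ i, x i ^ 2) =
      Real.Gamma ((p + 1) / 2) * Real.pi ^ (((n : ℝ) - 1) / 2) := by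
  have h1 : ∀ x : Fin n → ℝ, |x i₀| ^ p * Real.exp (-∑ i, x i ^ 2) =
      ∏ i, (if i = i₀ then |x i| ^ p else 1) * Real.exp (-(x i) ^ 2) := fun x => by
    rw [Finset.prod_mul_distrib, Finset.prod_ite_eq' Finset.univ i₀ (fun i => |x i| ^ p),
      if_pos (Finset.mem_univ _), ← Real.exp_sum, Finset.sum_neg_distrib]
  simp only [h1]
  rw [integral_fintype_prod_volume_eq_prod (fun i (t : ℝ) =>
    (if i = i₀ then |t| ^ p else 1) * Real.exp (-t ^ 2)),
    ← Finset.mul_prod_erase _ _ (Finset.mem_univ i₀)]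
  have h2 : ∀ i ∈ Finset.univ.erase i₀, ∫ t : ℝ, (if i = i₀ then |t| ^ p else 1) * Real.exp (-t ^ 2)
      = Real.pi ^ (1 / 2 : ℝ) := fun i hi => by
    simp only [if_neg (Finset.ne_of_mem_erase hi), one_mul]
    exact ballB_zero
  rw [Finset.prod_congr rfl h2, Finset.prod_const, Finset.card_erase_of_mem (Finset.mem_univ _),
    Finset.card_univ, Fintype.card_fin]
  simp only [if_true]
  rw [ballB_one hp, ← Real.rpow_natCast, ← Real.rpow_mul Real.pi_pos.le]
  have hn : 1 ≤ n := Nat.one_le_of_lt i₀.2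
  congr 2
  push_cast [Nat.cast_sub hn]
  ring

private theorem ballB_rot (i₀ : Fin n) {p : ℝ} {w : EuclideanSpace ℝ (Fin n)} (hw : w ≠ 0) :
    ∫ x : EuclideanSpace ℝ (Fin n), |inner ℝ w x| ^ p * Real.exp (-‖x‖ ^ 2) =
      ‖w‖ ^ p * ∫ x : EuclideanSpace ℝ (Fin n), |x i₀| ^ p * Real.exp (-‖x‖ ^ 2) := by
  have hw0 : ‖w‖ ≠ 0 := norm_ne_zero_iff.2 hw
  obtain ⟨u, hu⟩ : ∃ u : EuclideanSpace ℝ (Fin n), u = ‖w‖⁻¹ • w := ⟨_, rfl⟩
  have hu1 : ‖EuclideanSpace.single i₀ (1 : ℝ)‖ = ‖u‖ := by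
    rw [hu, norm_smul, norm_inv, norm_norm, inv_mul_cancel₀ hw0]
    simp
  obtain ⟨U, hU⟩ : ∃ U : EuclideanSpace ℝ (Fin n) ≃ₗᵢ[ℝ] EuclideanSpace ℝ (Fin n),
      U (EuclideanSpace.single i₀ (1 : ℝ)) = u := ⟨_, Submodule.reflection_sub hu1⟩
  have h1 := U.measurePreserving.integral_comp' (f := U.toHomeomorph.toMeasurableEquiv)
    (fun x : EuclideanSpace ℝ (Fin n) => |inner ℝ w x| ^ p * Real.exp (-‖x‖ ^ 2))
  rw [← h1, ← integral_const_mul]
  refine integral_congr_ae (Filter.Eventually.of_forall fun x => ?_)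
  have e1 : U.toHomeomorph.toMeasurableEquiv x = U x := rfl
  simp only
  rw [e1, U.norm_map]
  have e2 : inner ℝ w (U x) = ‖w‖ * x i₀ := by
    have e3 : w = ‖w‖ • u := by rw [hu, smul_smul, mul_inv_cancel₀ hw0, one_smul]
    calc inner ℝ w (U x) = inner ℝ (‖w‖ • u) (U x) := by rw [← e3]
      _ = ‖w‖ * x i₀ := by
          rw [inner_smul_left, ← hU, U.inner_map_map, EuclideanSpace.inner_single_left]
          simp
  rw [e2, abs_mul, abs_norm, Real.mul_rpow (norm_nonneg _) (abs_nonneg _)]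
  ring

theorem gauss_moment (hn : 1 ≤ n) {p : ℝ} (hp : 0 ≤ p) (w : Fin n → ℝ) :
    ∫ x : Fin n → ℝ, |∑ i, w i * x i| ^ p * Real.exp (-∑ i, x i ^ 2) =
      (∑ i, w i ^ 2) ^ (p / 2) *
        (Real.Gamma ((p + 1) / 2) * Real.pi ^ (((n : ℝ) - 1) / 2)) := by
  obtain ⟨i₀⟩ : Nonempty (Fin n) := ⟨⟨0, hn⟩⟩
  by_cases hw : w = 0
  · rcases hp.eq_or_lt with h0 | h0
    · subst h0
      have h := ballB_coord i₀ (le_refl (0 : ℝ))
      simp only [Real.rpow_zero] at h ⊢
      rw [h]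
      simp
    · subst hw
      have h1 : (0 : ℝ) ^ p = 0 := Real.zero_rpow h0.ne'
      have h2 : (0 : ℝ) ^ (p / 2) = 0 := Real.zero_rpow (by positivity)
      simp [h1, h2]
  · obtain ⟨w', hw'⟩ : ∃ w' : EuclideanSpace ℝ (Fin n), w' = WithLp.toLp 2 w := ⟨_, rfl⟩
    have hw0 : w' ≠ 0 := by
      intro h
      apply hw
      rw [hw'] at h
      funext i
      have := congrArg (fun x : EuclideanSpace ℝ (Fin n) => x i) h
      simpa using this
    have hin : ∀ x : Fin n → ℝ, ∑ i, w i * x i = inner ℝ w' (WithLp.toLp 2 x : EuclideanSpace ℝ (Fin n)) := by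
      intro x
      rw [hw', PiLp.inner_apply]
      refine Finset.sum_congr rfl fun i _ => ?_
      simp [mul_comm]
    have hnm : ∀ x : Fin n → ℝ, ∑ i, x i ^ 2 = ‖(WithLp.toLp 2 x : EuclideanSpace ℝ (Fin n))‖ ^ 2 := by
      intro x
      rw [EuclideanSpace.norm_sq_eq]
      simp
    have h1 := (EuclideanSpace.volume_preserving_symm_measurableEquiv_toLp (Fin n)).symm.integral_comp'
      (fun x : EuclideanSpace ℝ (Fin n) => |inner ℝ w' x| ^ p * Real.exp (-‖x‖ ^ 2))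
    have h2 := (EuclideanSpace.volume_preserving_symm_measurableEquiv_toLp (Fin n)).symm.integral_comp'
      (fun x : EuclideanSpace ℝ (Fin n) => |x i₀| ^ p * Real.exp (-‖x‖ ^ 2))
    have h3 := ballB_rot i₀ (p := p) hw0
    have h4 := ballB_coord i₀ hp
    simp only [hin, hnm] at h4 ⊢
    rw [← h4]
    have e1 : ‖w'‖ ^ p = (∑ i, w i ^ 2) ^ (p / 2) := by
      rw [hnm, ← hw', ← Real.rpow_natCast, ← Real.rpow_mul (norm_nonneg _)]
      congr 1
      push_cast
      ring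
    have e2 : ∑ i, w i ^ 2 = ‖(WithLp.toLp 2 w : EuclideanSpace ℝ (Fin n))‖ ^ 2 := hnm w
    rw [← e2, ← e1]
    refine Eq.trans h1 (h3.trans ?_)
    congr 1
    exact h2.symm

end Vale.Agent.P254U
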