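import Vale.Agent.Lib.P254U.ZP.BallA
import Vale.Agent.Lib.P254U.ZP.BallB

/-!
P254U/ZP/Ball: moments of the unit ball.  `ball_moment` = `ball_layer` with `g x = |∑ w_i x_i|^p`
and `gauss_moment`.  `eball_vol`: `p = 0`.
-/

open MeasureTheory Set

namespace Vale.Agent.P254U

variable {n : ℕ}

theorem JJ_pos (n : ℕ) {p : ℝ} (hp : 0 ≤ p) : 0 < JJ n p := by
  unfold JJ
  have h1 : 0 < Real.Gamma ((p + 1) / 2) := Real.Gamma_pos_of_pos (by linarith)
  have h2 : 0 < Real.Gamma (((n : ℝ) + p) / 2 + 1) :=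
    Real.Gamma_pos_of_pos (by
      have : (0 : ℝ) ≤ n := Nat.cast_nonneg n
      linarith)
  have h3 : 0 < Real.pi ^ (((n : ℝ) - 1) / 2) := Real.rpow_pos_of_pos Real.pi_pos _
  positivity

theorem ball_moment (hn : 1 ≤ n) {p : ℝ} (hp : 0 ≤ p) (w : Fin n → ℝ) :
    ∫ x in eball n, |∑ i, w i * x i| ^ p = (∑ i, w i ^ 2) ^ (p / 2) * JJ n p := by
  have hg : Continuous fun x : Fin n → ℝ => |∑ i, w i * x i| ^ p := by
    have h1 : Continuous fun x : Fin n → ℝ => |∑ i, w i * x i| := by fun_prop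
    exact h1.rpow_const fun _ => Or.inr hp
  have hhom : ∀ r : ℝ, 0 < r → ∀ x : Fin n → ℝ,
      |∑ i, w i * (r • x) i| ^ p = r ^ p * |∑ i, w i * x i| ^ p := by
    intro r hr x
    have h1 : ∑ i, w i * (r • x) i = r * ∑ i, w i * x i := by
      rw [Finset.mul_sum]
      refine Finset.sum_congr rfl fun i _ => ?_
      simp only [Pi.smul_apply, smul_eq_mul]
      ring
    rw [h1, abs_mul, abs_of_pos hr, Real.mul_rpow hr.le (abs_nonneg _)]
  have h := ball_layer hn hp hg hhom (fun x => Real.rpow_nonneg (abs_nonneg _) _)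
  rw [gauss_moment hn hp w] at h
  have h2 : 0 < Real.Gamma (((n : ℝ) + p) / 2 + 1) :=
    Real.Gamma_pos_of_pos (by
      have : (0 : ℝ) ≤ n := Nat.cast_nonneg n
      linarith)
  unfold JJ
  rw [← mul_div_assoc, eq_div_iff h2.ne']
  linarith

theorem eball_vol (hn : 1 ≤ n) : (volume (eball n)).toReal = JJ n 0 := by
  have h := ball_moment hn le_rfl (0 : Fin n → ℝ)
  simp only [Real.rpow_zero, zero_div, one_mul] at h
  rw [← h, setIntegral_const, smul_eq_mul, mul_one, measureReal_def]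

end Vale.Agent.P254U
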