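import Vale.Agent.Lib.P254U.ZP.Defs

/-!
P254U/ZP/Bath: the bathtub principle and the symmetry of `K`.

`bathtub`: `|K \ E| = |E \ K|` (finite equal volumes); `Φ ≤ 1` on `K \ E` and `1 ≤ c Φ` on `E \ K`, so
`∫_K Φ ≤ ∫_{K ∩ E} Φ + |K \ E| = ∫_{K ∩ E} Φ + |E \ K| ≤ c ∫_E Φ`.
`phi_measurable`: Tonelli (`Measurable.lintegral_prod_right'`).
`phi_fubini`: `∫_A Φ = ∫_ω ∫_A |⟨x, f ω⟩|^p dx` (`lintegral_lintegral_swap`).
`phi_neg`: `|∑ (-x_i) f_i| = |∑ x_i f_i|`.
`cen_zero`: for symmetric `K`, `∫_K x_i = 0` (substitution `x ↦ -x`), and so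
`wᵀ Σ w = ∫_K ⟨w,x⟩^2 / |K|` (`KLS_covM_form`).
-/

open MeasureTheory Set

namespace Vale.Agent.P254U

variable {n : ℕ}

theorem bathtub {K E : Set (Fin n → ℝ)} (hK : MeasurableSet K) (hE : MeasurableSet E)
    (hV : volume K = volume E) (hf : volume K ≠ ⊤) {Φ : (Fin n → ℝ) → ENNReal}
    (hΦ : Measurable Φ) {c : ENNReal} (hc : 1 ≤ c) (h1 : ∀ x ∈ K, Φ x ≤ 1)
    (h2 : ∀ x, x ∉ K → 1 ≤ c * Φ x) :
    ∫⁻ x in K, Φ x ≤ c * ∫⁻ x in E, Φ x := by
  have hd : volume (K \ E) = volume (E \ K) := by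
    have e1 := measure_inter_add_sdiff (μ := volume) K hE
    have e2 := measure_inter_add_sdiff (μ := volume) E hK
    rw [inter_comm E K] at e2
    have e3 : volume (K ∩ E) + volume (K \ E) = volume (K ∩ E) + volume (E \ K) := by
      rw [e1, e2, hV]
    have hfin : volume (K ∩ E) ≠ ⊤ := ne_top_of_le_ne_top hf (measure_mono inter_subset_left)
    exact (ENNReal.add_right_inj hfin).1 e3
  have a1 : ∫⁻ x in K \ E, Φ x ≤ volume (K \ E) := by
    calc ∫⁻ x in K \ E, Φ x ≤ ∫⁻ _x in K \ E, 1 :=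
          setLIntegral_mono measurable_const fun x hx => h1 x hx.1
      _ = volume (K \ E) := setLIntegral_one _
  have a2 : volume (E \ K) ≤ ∫⁻ x in E \ K, c * Φ x := by
    calc volume (E \ K) = ∫⁻ _x in E \ K, 1 := (setLIntegral_one _).symm
      _ ≤ ∫⁻ x in E \ K, c * Φ x :=
          setLIntegral_mono (hΦ.const_mul c) fun x hx => h2 x hx.2
  have a3 : ∫⁻ x in K ∩ E, Φ x ≤ ∫⁻ x in E ∩ K, c * Φ x := by
    rw [inter_comm E K]
    refine setLIntegral_mono (hΦ.const_mul c) fun x _ => ?_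
    calc Φ x = 1 * Φ x := (one_mul _).symm
      _ ≤ c * Φ x := mul_le_mul_left hc _
  calc ∫⁻ x in K, Φ x = (∫⁻ x in K ∩ E, Φ x) + ∫⁻ x in K \ E, Φ x :=
        (lintegral_inter_add_sdiff Φ K hE).symm
    _ ≤ (∫⁻ x in E ∩ K, c * Φ x) + ∫⁻ x in E \ K, c * Φ x :=
        add_le_add a3 (a1.trans (hd.le.trans a2))
    _ = ∫⁻ x in E, c * Φ x := lintegral_inter_add_sdiff _ E hK
    _ = c * ∫⁻ x in E, Φ x := lintegral_const_mul c hΦ

private theorem bath_meas {Ω : Type*} [MeasurableSpace Ω]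
    {f : Ω → (Fin n → ℝ)} (hf : Measurable f) {p : ℝ} (hp : 0 ≤ p) :
    Measurable (fun z : (Fin n → ℝ) × Ω => ENNReal.ofReal (|∑ i, z.1 i * f z.2 i| ^ p)) := by
  have h1 : Measurable (fun z : (Fin n → ℝ) × Ω => ∑ i, z.1 i * f z.2 i) := by
    refine Finset.measurable_sum _ fun i _ => ?_
    have h2 : Measurable (fun z : (Fin n → ℝ) × Ω => z.1 i) :=
      (measurable_pi_apply i).comp measurable_fst
    have h3 : Measurable (fun z : (Fin n → ℝ) × Ω => f z.2 i) :=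
      (measurable_pi_apply i).comp (hf.comp measurable_snd)
    exact h2.mul h3
  have h2 : Continuous (fun t : ℝ => |t| ^ p) := continuous_abs.rpow_const fun _ => Or.inr hp
  exact ENNReal.measurable_ofReal.comp (h2.measurable.comp h1)

theorem phi_measurable {Ω : Type*} [MeasurableSpace Ω] (μ : Measure Ω) [SFinite μ]
    {f : Ω → (Fin n → ℝ)} (hf : Measurable f) {p : ℝ} (hp : 0 ≤ p) :
    Measurable (PhiP μ f p) :=
  (bath_meas hf hp).lintegral_prod_right'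

theorem phi_fubini {Ω : Type*} [MeasurableSpace Ω] (μ : Measure Ω) [SFinite μ]
    {f : Ω → (Fin n → ℝ)} (hf : Measurable f) {p : ℝ} (hp : 0 ≤ p) (A : Set (Fin n → ℝ)) :
    ∫⁻ x in A, PhiP μ f p x =
      ∫⁻ ω, (∫⁻ x in A, ENNReal.ofReal (|∑ i, x i * f ω i| ^ p)) ∂μ := by
  unfold PhiP
  exact lintegral_lintegral_swap (bath_meas hf hp).aemeasurable

theorem phi_neg {Ω : Type*} [MeasurableSpace Ω] (μ : Measure Ω)
    (f : Ω → (Fin n → ℝ)) (p : ℝ) (x : Fin n → ℝ) : PhiP μ f p (-x) = PhiP μ f p x := by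
  unfold PhiP
  refine lintegral_congr fun ω => ?_
  have h1 : ∑ i, (-x) i * f ω i = -∑ i, x i * f ω i := by
    rw [← Finset.sum_neg_distrib]
    refine Finset.sum_congr rfl fun i _ => ?_
    rw [Pi.neg_apply, neg_mul]
  rw [h1, abs_neg]

theorem cen_zero {K : Set (Fin n → ℝ)} (hK : ConvBody n K) (hs : ∀ x ∈ K, -x ∈ K) (i : Fin n) :
    cen K i = 0 := by
  have hpre : (fun x : Fin n → ℝ => -x) ⁻¹' K = K := by
    ext x
    constructor
    · intro hx
      have := hs _ hx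
      rwa [neg_neg] at this
    · intro hx
      exact hs x hx
  have h := (Measure.measurePreserving_neg (volume : Measure (Fin n → ℝ))).setIntegral_preimage_emb
    (MeasurableEquiv.neg (Fin n → ℝ)).measurableEmbedding (fun x => x i) K
  rw [hpre] at h
  simp only [Pi.neg_apply] at h
  rw [integral_neg] at h
  have h0 : ∫ x in K, x i = 0 := by linarith
  unfold cen
  rw [h0, zero_div]

theorem covM_form_sym {K : Set (Fin n → ℝ)} (hK : ConvBody n K) (hs : ∀ x ∈ K, -x ∈ K)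
    (w : Fin n → ℝ) :
    w ⬝ᵥ (covM K).mulVec w = (∫ x in K, (∑ i, w i * x i) ^ 2) / (volume K).toReal := by
  rw [KLS_covM_form hK]
  simp only [cen_zero hK hs, sub_zero]

theorem covM_posDef {K : Set (Fin n → ℝ)} (hK : ConvBody n K) : (covM K).PosDef := by
  have h := SM_posDef hK
  have hc : (0 : ℝ) < (((n : ℝ) + 1) * ((n : ℝ) + 2))⁻¹ := by positivity
  have e : covM K = (((n : ℝ) + 1) * ((n : ℝ) + 2))⁻¹ • SM K := by
    ext i j
    rw [Matrix.smul_apply, SM, smul_eq_mul]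
    field_simp
  rw [e]
  exact h.smul hc

end Vale.Agent.P254U
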