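import Vale.Agent.Lib.P254U.ZP.Defs
import Vale.Agent.Lib.P254U.PLG

/-!
P254U/ZP/BM: the Brunn-Minkowski inequality from the Prekopa-Leindler inequality `pl_gen`.

Proof.  `a = |A|^(1/n)`, `b = |B|^(1/n)`, `c = (1-l) a + l b > 0`, `θ = l b / c`, `1 - θ = (1-l) a / c`.
Apply `pl_gen` with `θ` to the indicators of `A' = a⁻¹ • A`, `B' = b⁻¹ • B`, `C' = c⁻¹ • C`
(`|A'| = |B'| = 1`): for `x ∈ A'`, `y ∈ B'`, `(1-θ) x + θ y = c⁻¹ ((1-l) (a x) + l (b y)) ∈ C'`.
Hence `1 ≤ |C'| = c^(-n) |C|`.
`tail_bm`: `A = tailS K w s`, `B = tailS K w t`, `C = tailS K w ((1-l) s + l t)`.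
-/

open MeasureTheory Set

namespace Vale.Agent.P254U

variable {n : ℕ}

private theorem bm_scale {A : Set (Fin n → ℝ)} {a : ℝ} (ha : 0 < a) :
    volume {x : Fin n → ℝ | a • x ∈ A} = ENNReal.ofReal ((a ^ n)⁻¹) * volume A := by
  have h1 := Measure.addHaar_preimage_smul (volume : Measure (Fin n → ℝ)) ha.ne' A
  rw [Module.finrank_fin_fun, abs_of_pos (by positivity)] at h1
  exact h1

theorem brunn_minkowski (hn : 1 ≤ n) {A B C : Set (Fin n → ℝ)} (hA : MeasurableSet A)
    (hB : MeasurableSet B) (hC : MeasurableSet C) (hCf : volume C ≠ ⊤)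
    (hA0 : 0 < (volume A).toReal) (hB0 : 0 < (volume B).toReal) {l : ℝ} (h0 : 0 < l) (h1 : l < 1)
    (H : ∀ x ∈ A, ∀ y ∈ B, (1 - l) • x + l • y ∈ C) :
    (1 - l) * (volume A).toReal ^ (1 / (n : ℝ)) + l * (volume B).toReal ^ (1 / (n : ℝ)) ≤
      (volume C).toReal ^ (1 / (n : ℝ)) := by
  have hn0 : n ≠ 0 := by omega
  set a : ℝ := (volume A).toReal ^ (1 / (n : ℝ)) with hadef
  set b : ℝ := (volume B).toReal ^ (1 / (n : ℝ)) with hbdef
  have ha : 0 < a := Real.rpow_pos_of_pos hA0 _
  have hb : 0 < b := Real.rpow_pos_of_pos hB0 _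
  have hl : 0 < 1 - l := by linarith
  set c : ℝ := (1 - l) * a + l * b with hcdef
  have hc : 0 < c := by positivity
  have han : a ^ n = (volume A).toReal := by
    rw [hadef, one_div, Real.rpow_inv_natCast_pow hA0.le hn0]
  have hbn : b ^ n = (volume B).toReal := by
    rw [hbdef, one_div, Real.rpow_inv_natCast_pow hB0.le hn0]
  have hAv : volume A = ENNReal.ofReal (a ^ n) := by
    rw [han, ENNReal.ofReal_toReal]
    intro h
    rw [h] at hA0
    simp at hA0
  have hBv : volume B = ENNReal.ofReal (b ^ n) := by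
    rw [hbn, ENNReal.ofReal_toReal]
    intro h
    rw [h] at hB0
    simp at hB0
  have hA1 : volume {x : Fin n → ℝ | a • x ∈ A} = 1 := by
    rw [bm_scale ha, hAv, ← ENNReal.ofReal_mul (by positivity), inv_mul_cancel₀ (by positivity),
      ENNReal.ofReal_one]
  have hB1 : volume {x : Fin n → ℝ | b • x ∈ B} = 1 := by
    rw [bm_scale hb, hBv, ← ENNReal.ofReal_mul (by positivity), inv_mul_cancel₀ (by positivity),
      ENNReal.ofReal_one]
  have hAm : MeasurableSet {x : Fin n → ℝ | a • x ∈ A} := (measurable_const_smul a) hA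
  have hBm : MeasurableSet {x : Fin n → ℝ | b • x ∈ B} := (measurable_const_smul b) hB
  have hCm : MeasurableSet {x : Fin n → ℝ | c • x ∈ C} := (measurable_const_smul c) hC
  set th : ℝ := l * b / c with hth
  have hth0 : 0 < th := by positivity
  have hth1 : 1 - th = (1 - l) * a / c := by
    rw [hth, eq_div_iff hc.ne', sub_mul, div_mul_cancel₀ _ hc.ne', hcdef]
    ring
  have hth2 : 0 < 1 - th := by rw [hth1]; positivity
  have key := pl_gen n (f := indicator {x : Fin n → ℝ | a • x ∈ A} 1)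
    (g := indicator {x : Fin n → ℝ | b • x ∈ B} 1)
    (h := indicator {x : Fin n → ℝ | c • x ∈ C} 1)
    (measurable_one.indicator hAm) (measurable_one.indicator hBm) (measurable_one.indicator hCm)
    hth0 (by linarith) (l := th) (by
      intro x y
      by_cases hx : a • x ∈ A
      · by_cases hy : b • y ∈ B
        · have hz : c • ((1 - th) • x + th • y) ∈ C := by
            have h2 := H _ hx _ hy
            have h3 : c • ((1 - th) • x + th • y) = (1 - l) • (a • x) + l • (b • y) := by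
              rw [smul_add, smul_smul, smul_smul, smul_smul, smul_smul, hth1, hth,
                mul_div_cancel₀ _ hc.ne', mul_div_cancel₀ _ hc.ne']
            rw [h3]
            exact h2
          rw [indicator_of_mem (show x ∈ {x : Fin n → ℝ | a • x ∈ A} from hx),
            indicator_of_mem (show y ∈ {x : Fin n → ℝ | b • x ∈ B} from hy),
            indicator_of_mem (show (1 - th) • x + th • y ∈ {x : Fin n → ℝ | c • x ∈ C} from hz)]
          simp
        · rw [indicator_of_notMem (show y ∉ {x : Fin n → ℝ | b • x ∈ B} from hy),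
            ENNReal.zero_rpow_of_pos hth0, mul_zero]
          exact zero_le
      · rw [indicator_of_notMem (show x ∉ {x : Fin n → ℝ | a • x ∈ A} from hx),
          ENNReal.zero_rpow_of_pos hth2, zero_mul]
        exact zero_le)
  rw [lintegral_indicator_one hAm, lintegral_indicator_one hBm, lintegral_indicator_one hCm,
    hA1, hB1, ENNReal.one_rpow, ENNReal.one_rpow, one_mul, bm_scale hc] at key
  have hcn : c ^ n ≤ (volume C).toReal := by
    have h2 : ENNReal.ofReal ((c ^ n)⁻¹) * volume C =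
        ENNReal.ofReal ((c ^ n)⁻¹ * (volume C).toReal) := by
      rw [ENNReal.ofReal_mul (by positivity), ENNReal.ofReal_toReal hCf]
    rw [h2, ENNReal.one_le_ofReal] at key
    have h3 := mul_le_mul_of_nonneg_left key (show 0 ≤ c ^ n by positivity)
    rw [mul_one, ← mul_assoc, mul_inv_cancel₀ (by positivity), one_mul] at h3
    exact h3
  have h4 := Real.rpow_le_rpow (by positivity) hcn (show 0 ≤ 1 / (n : ℝ) by positivity)
  have h5 : (c ^ n) ^ (1 / (n : ℝ)) = c := by
    rw [one_div, Real.pow_rpow_inv_natCast hc.le hn0]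
  rwa [h5] at h4

theorem tailS_compact {K : Set (Fin n → ℝ)} (hK : ConvBody n K) (w : Fin n → ℝ) (t : ℝ) :
    IsCompact (tailS K w t) := by
  have h1 : IsClosed {x : Fin n → ℝ | t ≤ ∑ i, w i * x i} :=
    isClosed_le continuous_const (by fun_prop)
  exact hK.compact.inter_right h1

theorem tail_bm (hn : 1 ≤ n) {K : Set (Fin n → ℝ)} (hK : ConvBody n K) (w : Fin n → ℝ)
    {s t l : ℝ} (h0 : 0 < l) (h1 : l < 1) (hs : 0 < tailV K w s) (ht : 0 < tailV K w t) :
    (1 - l) * tailV K w s ^ (1 / (n : ℝ)) + l * tailV K w t ^ (1 / (n : ℝ)) ≤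
      tailV K w ((1 - l) * s + l * t) ^ (1 / (n : ℝ)) := by
  refine brunn_minkowski hn (tailS_compact hK w s).measurableSet
    (tailS_compact hK w t).measurableSet (tailS_compact hK w _).measurableSet
    (tailS_compact hK w _).measure_lt_top.ne hs ht h0 h1 ?_
  rintro x ⟨hx1, hx2⟩ y ⟨hy1, hy2⟩
  refine ⟨hK.convex hx1 hy1 (by linarith) h0.le (by ring), ?_⟩
  have h2 : ∑ i, w i * ((1 - l) • x + l • y) i =
      (1 - l) * ∑ i, w i * x i + l * ∑ i, w i * y i := by
    rw [Finset.mul_sum, Finset.mul_sum, ← Finset.sum_add_distrib]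
    refine Finset.sum_congr rfl fun i _ => ?_
    simp only [Pi.add_apply, Pi.smul_apply, smul_eq_mul]
    ring
  rw [h2]
  have h3 : 0 ≤ 1 - l := by linarith
  exact add_le_add (mul_le_mul_of_nonneg_left hx2 h3) (mul_le_mul_of_nonneg_left hy2 h0.le)

end Vale.Agent.P254U
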