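import Vale.Agent.Lib.P254U.ZP.Defs

/-!
P254U/ZP/BallA: Gaussian integrals of homogeneous functions.

`exp(-|x|^2) = ∫_{|x|}^∞ 2 r exp(-r^2) dr`, so by Tonelli
`∫ g(x) exp(-|x|^2) dx = ∫_0^∞ 2 r exp(-r^2) (∫_{r B} g) dr` and
`∫_{r B} g = r^(n+p) ∫_B g` (substitution `x = r y`), finally
`∫_0^∞ 2 r^(n+p+1) exp(-r^2) dr = Γ((n+p)/2 + 1)` (`integral_rpow_mul_exp_neg_rpow`, or
`Real.Gamma_eq_integral` and a substitution).  `g` is continuous and nonnegative, the ball is compact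
(`eball_compact`), all integrals are finite.
-/

open MeasureTheory Set

namespace Vale.Agent.P254U

variable {n : ℕ}

open scoped Pointwise

private theorem BallA_meas : Measurable (fun x : Fin n → ℝ => ∑ i, x i ^ 2) := by
  fun_prop

theorem eball_compact (n : ℕ) : IsCompact (eball n) := by
  have hc : IsClosed (eball n) := by
    apply isClosed_le
    · fun_prop
    · exact continuous_const
  refine (isCompact_Icc (a := fun _ : Fin n => (-1 : ℝ)) (b := fun _ => 1)).of_isClosed_subset hc ?_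
  intro x hx
  have h1 : ∀ i, |x i| ≤ 1 := by
    intro i
    have h2 : x i ^ 2 ≤ ∑ j, x j ^ 2 :=
      Finset.single_le_sum (f := fun j => x j ^ 2) (fun j _ => sq_nonneg (x j)) (Finset.mem_univ i)
    have h3 : ∑ j, x j ^ 2 ≤ 1 := hx
    exact (sq_le_one_iff_abs_le_one _).1 (h2.trans h3)
  exact ⟨fun i => (abs_le.1 (h1 i)).1, fun i => (abs_le.1 (h1 i)).2⟩

private theorem BallA_scale {p : ℝ} {g : (Fin n → ℝ) → ℝ}
    (hhom : ∀ r : ℝ, 0 < r → ∀ x, g (r • x) = r ^ p * g x) {s : ℝ} (hs : 0 < s) :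
    ∫ x in {x : Fin n → ℝ | ∑ i, x i ^ 2 ≤ s}, g x =
      s ^ (((n : ℝ) + p) / 2) * ∫ x in eball n, g x := by
  have hr0 : 0 < Real.sqrt s := Real.sqrt_pos.2 hs
  have hset : {x : Fin n → ℝ | ∑ i, x i ^ 2 ≤ s} = Real.sqrt s • eball n := by
    ext x
    rw [Set.mem_smul_set_iff_inv_smul_mem₀ hr0.ne']
    simp only [eball, Set.mem_ofPred_eq, Pi.smul_apply, smul_eq_mul, mul_pow, ← Finset.mul_sum]
    rw [inv_pow, Real.sq_sqrt hs.le, inv_mul_le_iff₀ hs, mul_one]
  have h1 := Measure.setIntegral_comp_smul_of_pos (volume : Measure (Fin n → ℝ)) g (eball n) hr0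
  rw [Module.finrank_fin_fun] at h1
  have h2 : ∫ x in eball n, g (Real.sqrt s • x) = Real.sqrt s ^ p * ∫ x in eball n, g x := by
    rw [← integral_const_mul]
    exact integral_congr_ae (Filter.Eventually.of_forall fun x => hhom _ hr0 x)
  rw [h2, smul_eq_mul, ← hset] at h1
  have h3 : (0 : ℝ) < Real.sqrt s ^ n := pow_pos hr0 n
  have h4 : ∫ x in {x : Fin n → ℝ | ∑ i, x i ^ 2 ≤ s}, g x =
      Real.sqrt s ^ n * (Real.sqrt s ^ p * ∫ x in eball n, g x) := by
    rw [h1, ← mul_assoc, mul_inv_cancel₀ h3.ne', one_mul]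
  rw [h4, ← mul_assoc]
  congr 1
  rw [← Real.rpow_natCast, ← Real.rpow_add hr0, Real.sqrt_eq_rpow, ← Real.rpow_mul hs.le]
  congr 1
  ring

private theorem BallA_scale' {p : ℝ} {g : (Fin n → ℝ) → ℝ} (hg : Continuous g)
    (hhom : ∀ r : ℝ, 0 < r → ∀ x, g (r • x) = r ^ p * g x) (hnn : ∀ x, 0 ≤ g x)
    {s : ℝ} (hs : 0 < s) :
    ∫⁻ x in {x : Fin n → ℝ | ∑ i, x i ^ 2 ≤ s}, ENNReal.ofReal (g x) =
      ENNReal.ofReal (s ^ (((n : ℝ) + p) / 2)) * ENNReal.ofReal (∫ x in eball n, g x) := by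
  have hr0 : 0 < Real.sqrt s := Real.sqrt_pos.2 hs
  have hset : {x : Fin n → ℝ | ∑ i, x i ^ 2 ≤ s} = Real.sqrt s • eball n := by
    ext x
    rw [Set.mem_smul_set_iff_inv_smul_mem₀ hr0.ne']
    simp only [eball, Set.mem_ofPred_eq, Pi.smul_apply, smul_eq_mul, mul_pow, ← Finset.mul_sum]
    rw [inv_pow, Real.sq_sqrt hs.le, inv_mul_le_iff₀ hs, mul_one]
  have hK : IsCompact {x : Fin n → ℝ | ∑ i, x i ^ 2 ≤ s} := by
    rw [hset]
    exact (eball_compact n).smul _
  have hint : IntegrableOn g {x : Fin n → ℝ | ∑ i, x i ^ 2 ≤ s} :=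
    hg.continuousOn.integrableOn_compact hK
  rw [← ENNReal.ofReal_mul (Real.rpow_nonneg hs.le _), ← BallA_scale hhom hs]
  exact (ofReal_integral_eq_lintegral_ofReal hint
    (Filter.Eventually.of_forall fun x => hnn x)).symm

private theorem BallA_exp (c : ℝ) :
    ∫⁻ s in Ici c, ENNReal.ofReal (Real.exp (-s)) = ENNReal.ofReal (Real.exp (-c)) := by
  rw [setLIntegral_congr (Ioi_ae_eq_Ici (μ := (volume : Measure ℝ)) (a := c)).symm]
  rw [← ofReal_integral_eq_lintegral_ofReal (integrableOn_exp_neg_Ioi c)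
    (Filter.Eventually.of_forall fun s => (Real.exp_pos _).le), integral_exp_neg_Ioi]

theorem ball_layer (hn : 1 ≤ n) {p : ℝ} (hp : 0 ≤ p) {g : (Fin n → ℝ) → ℝ} (hg : Continuous g)
    (hhom : ∀ r : ℝ, 0 < r → ∀ x, g (r • x) = r ^ p * g x) (hnn : ∀ x, 0 ≤ g x) :
    ∫ x, g x * Real.exp (-∑ i, x i ^ 2) =
      Real.Gamma (((n : ℝ) + p) / 2 + 1) * ∫ x in eball n, g x := by
  have ha : 0 < ((n : ℝ) + p) / 2 + 1 := by positivity
  have hI0 : 0 ≤ ∫ x in eball n, g x := integral_nonneg hnn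
  have hq : Measurable (fun x : Fin n → ℝ => ∑ i, x i ^ 2) := BallA_meas
  have hgm : Measurable g := hg.measurable
  have hm : Measurable (fun x : Fin n → ℝ => g x * Real.exp (-∑ i, x i ^ 2)) :=
    hgm.mul (Real.measurable_exp.comp hq.neg)
  rw [integral_eq_lintegral_of_nonneg_ae
    (Filter.Eventually.of_forall fun x => mul_nonneg (hnn x) (Real.exp_pos _).le)
    hm.aestronglyMeasurable]
  have key : ∫⁻ x, ENNReal.ofReal (g x * Real.exp (-∑ i, x i ^ 2)) =
      ENNReal.ofReal (Real.Gamma (((n : ℝ) + p) / 2 + 1) * ∫ x in eball n, g x) := by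
    have e1 : ∀ x : Fin n → ℝ, ENNReal.ofReal (g x * Real.exp (-∑ i, x i ^ 2)) =
        ∫⁻ s in Ioi (0 : ℝ), ENNReal.ofReal (g x) *
          (Ici (∑ i, x i ^ 2)).indicator (fun s => ENNReal.ofReal (Real.exp (-s))) s := by
      intro x
      have hq0 : 0 ≤ ∑ i, x i ^ 2 := Finset.sum_nonneg fun i _ => sq_nonneg (x i)
      rw [lintegral_const_mul' _ _ ENNReal.ofReal_ne_top,
        ENNReal.ofReal_mul (hnn x), setLIntegral_congr (Ioi_ae_eq_Ici (μ := (volume : Measure ℝ))),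
        lintegral_indicator measurableSet_Ici, Measure.restrict_restrict measurableSet_Ici,
        inter_eq_left.2 (Ici_subset_Ici.2 hq0), BallA_exp]
    simp_rw [e1]
    rw [lintegral_lintegral_swap]
    · have e2 : ∀ s ∈ Ioi (0 : ℝ), ∫⁻ x : Fin n → ℝ, ENNReal.ofReal (g x) *
          (Ici (∑ i, x i ^ 2)).indicator (fun s => ENNReal.ofReal (Real.exp (-s))) s =
          ENNReal.ofReal (Real.exp (-s) * s ^ (((n : ℝ) + p) / 2 + 1 - 1)) *
            ENNReal.ofReal (∫ x in eball n, g x) := by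
        intro s hs
        rw [add_sub_cancel_right, ENNReal.ofReal_mul (Real.exp_pos _).le, mul_assoc,
          ← BallA_scale' hg hhom hnn hs]
        have hms : MeasurableSet {x : Fin n → ℝ | ∑ i, x i ^ 2 ≤ s} := hq measurableSet_Iic
        rw [← lintegral_indicator hms]
        rw [← lintegral_const_mul' _ _ ENNReal.ofReal_ne_top]
        refine lintegral_congr fun x => ?_
        by_cases h : ∑ i, x i ^ 2 ≤ s
        · rw [indicator_of_mem (show s ∈ Ici (∑ i, x i ^ 2) from h),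
            indicator_of_mem (show x ∈ {x : Fin n → ℝ | ∑ i, x i ^ 2 ≤ s} from h), mul_comm]
        · rw [indicator_of_notMem (show s ∉ Ici (∑ i, x i ^ 2) from h),
            indicator_of_notMem (show x ∉ {x : Fin n → ℝ | ∑ i, x i ^ 2 ≤ s} from h),
            mul_zero, mul_zero]
      rw [setLIntegral_congr_fun measurableSet_Ioi e2,
        lintegral_mul_const' _ _ ENNReal.ofReal_ne_top,
        ← ofReal_integral_eq_lintegral_ofReal (Real.GammaIntegral_convergent ha) ?_,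
        ← Real.Gamma_eq_integral ha, ENNReal.ofReal_mul (Real.Gamma_pos_of_pos ha).le]
      refine (ae_restrict_mem measurableSet_Ioi).mono fun s hs => ?_
      exact mul_nonneg (Real.exp_pos _).le (Real.rpow_nonneg (le_of_lt hs) _)
    · have m1 : MeasurableSet {z : (Fin n → ℝ) × ℝ | ∑ i, z.1 i ^ 2 ≤ z.2} :=
        measurableSet_le (hq.comp measurable_fst) measurable_snd
      have m2 : Measurable (fun z : (Fin n → ℝ) × ℝ => ENNReal.ofReal (g z.1) *
          {z : (Fin n → ℝ) × ℝ | ∑ i, z.1 i ^ 2 ≤ z.2}.indicator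
            (fun z => ENNReal.ofReal (Real.exp (-z.2))) z) :=
        (hgm.comp measurable_fst).ennreal_ofReal.mul
          ((Real.measurable_exp.comp measurable_snd.neg).ennreal_ofReal.indicator m1)
      exact m2.aemeasurable
  rw [key, ENNReal.toReal_ofReal (mul_nonneg (Real.Gamma_pos_of_pos ha).le hI0)]

end Vale.Agent.P254U
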