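import Vale.Agent.Lib.P254U.ZP.Ellip
import Vale.Agent.Lib.P254U.ZP.Bath

/-!
P254U/ZP/Comp: the comparison inequality.

Take `E`, `R` from `exists_ellip` with `A = covM K`, `V = |K|`.  `N = ∫_ω ofReal ((wᵀΣw)^(p/2))`,
`w = f ω`.  By `phi_fubini` and `hmom`, `∫_K Φ ≥ ofReal (a V) * N`; also `∫_K Φ ≤ |K| < ∞`, so `N < ∞`.
By `phi_fubini` and the formula for `E`, `∫_E Φ = ofReal (V / J_0 * R^p * J_p) * N`.
`N ≠ 0`: otherwise `f ω = 0` for almost all `ω` (`covM K` is positive definite), so `PhiP μ f p = 0`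
and `K` would be everything, not compact.  `bathtub` gives
`ofReal (a V) * N ≤ ofReal c * ofReal (V / J_0 * R^p * J_p) * N`; cancel `N`, `V`.
(`∑ i, x i * f ω i = ∑ i, f ω i * x i`; convert between `∫⁻ ofReal` and `∫` by
`ofReal_integral_eq_lintegral_ofReal`, the functions are continuous on compact sets.)
-/

open MeasureTheory Set

namespace Vale.Agent.P254U

variable {n : ℕ}

theorem Comp_meas {E : Set (Fin n → ℝ)} (hE : IsCompact E) {p : ℝ} (hp : 0 ≤ p)
    (w : Fin n → ℝ) :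
    ∫⁻ x in E, ENNReal.ofReal (|∑ i, x i * w i| ^ p) =
      ENNReal.ofReal (∫ x in E, |∑ i, w i * x i| ^ p) := by
  have hc : Continuous fun x : Fin n → ℝ => |∑ i, w i * x i| ^ p := by
    refine Continuous.rpow_const ?_ fun _ => Or.inr hp
    exact continuous_abs.comp (continuous_finsetSum _ fun i _ =>
      continuous_const.mul (continuous_apply i))
  rw [ofReal_integral_eq_lintegral_ofReal (hc.continuousOn.integrableOn_compact hE)
    (Filter.Eventually.of_forall fun x => Real.rpow_nonneg (abs_nonneg _) _)]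
  refine lintegral_congr fun x => ?_
  simp_rw [mul_comm]

theorem zp_comp (hn : 1 ≤ n) {K : Set (Fin n → ℝ)} (hK : ConvBody n K) {Ω : Type*}
    [MeasurableSpace Ω] (μ : Measure Ω) [SFinite μ] {f : Ω → (Fin n → ℝ)} (hf : Measurable f)
    {p : ℝ} (hp : 1 ≤ p) {c : ℝ} (hc : 1 ≤ c) (h1 : ∀ x ∈ K, PhiP μ f p x ≤ 1)
    (h2 : ∀ x, x ∉ K → 1 ≤ ENNReal.ofReal c * PhiP μ f p x) {a : ℝ} (ha : 0 < a)
    (hmom : ∀ w : Fin n → ℝ, a * (w ⬝ᵥ (covM K).mulVec w) ^ (p / 2) * (volume K).toReal ≤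
      ∫ x in K, |∑ i, w i * x i| ^ p) :
    ∃ R : ℝ, 0 < R ∧ R ^ (2 * n) * (covM K).det * (JJ n 0) ^ 2 = (volume K).toReal ^ 2 ∧
      a * JJ n 0 ≤ c * (R ^ p * JJ n p) := by
  have hp0 : 0 ≤ p := by linarith
  have hA := covM_posDef hK
  have hV := convBody_vol_pos hK
  have hJ0 := JJ_pos n le_rfl
  have hJp := JJ_pos n hp0
  have hfin : volume K ≠ ⊤ := hK.compact.measure_lt_top.ne
  obtain ⟨E, hEc, hEV, R, hR, hdet, hE⟩ := exists_ellip hn hA hV
  obtain ⟨E', hEc', hEV', R', hR', hdet', hE'⟩ := exists_ellip hn hA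
    (show (0 : ℝ) < (volume K).toReal + 1 by linarith)
  refine ⟨R, hR, hdet, ?_⟩
  set V := (volume K).toReal with hVdef
  set g : Ω → ℝ := fun ω => (f ω ⬝ᵥ (covM K).mulVec (f ω)) ^ (p / 2) with hg
  have hg0 : ∀ ω, 0 ≤ g ω := fun ω => Real.rpow_nonneg (hA.posSemidef.dotProduct_mulVec_nonneg _) _
  set N := ∫⁻ ω, ENNReal.ofReal (g ω) ∂μ with hN
  have hκ : ∀ W ρ : ℝ, 0 < W → 0 < ρ → 0 ≤ W / JJ n 0 * (ρ ^ p * JJ n p) := by
    intro W ρ hW hρ
    positivity
  -- the integral over an ellipsoid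
  have hell : ∀ (F : Set (Fin n → ℝ)) (W ρ : ℝ), IsCompact F → 0 < W → 0 < ρ →
      (∀ p : ℝ, 0 ≤ p → ∀ w : Fin n → ℝ, ∫ x in F, |∑ i, w i * x i| ^ p =
          W / JJ n 0 * (ρ ^ p * (w ⬝ᵥ (covM K).mulVec w) ^ (p / 2) * JJ n p)) →
      ∫⁻ x in F, PhiP μ f p x =
        ENNReal.ofReal (W / JJ n 0 * (ρ ^ p * JJ n p)) * N := by
    intro F W ρ hF hW hρ hm
    rw [phi_fubini μ hf hp0, hN, ← lintegral_const_mul' _ _ ENNReal.ofReal_ne_top]
    refine lintegral_congr fun ω => ?_
    rw [Comp_meas hF hp0, hm p hp0, ← ENNReal.ofReal_mul (hκ W ρ hW hρ)]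
    congr 1
    simp only [hg]
    ring
  have hEint := hell E V R hEc hV hR hE
  have hEint' := hell E' (V + 1) R' hEc' (by linarith) hR' hE'
  -- lower bound of the integral over `K`
  have hKint : ENNReal.ofReal (a * V) * N ≤ ∫⁻ x in K, PhiP μ f p x := by
    rw [phi_fubini μ hf hp0]
    refine (lintegral_const_mul_le _ _).trans (lintegral_mono fun ω => ?_)
    rw [Comp_meas hK.compact hp0, ← ENNReal.ofReal_mul (by positivity)]
    refine ENNReal.ofReal_le_ofReal ?_
    refine le_trans (le_of_eq ?_) (hmom (f ω))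
    simp only [hg]
    ring
  have hKfin : ∫⁻ x in K, PhiP μ f p x ≤ volume K := by
    calc ∫⁻ x in K, PhiP μ f p x ≤ ∫⁻ _ in K, 1 := by
          refine setLIntegral_mono_ae' hK.compact.measurableSet ?_
          exact Filter.Eventually.of_forall fun x hx => h1 x hx
      _ = volume K := by rw [setLIntegral_one]
  have hNtop : N ≠ ⊤ := by
    intro h
    rw [h, ENNReal.mul_top (by
      rw [Ne, ENNReal.ofReal_eq_zero, not_le]; positivity)] at hKint
    exact hfin (top_le_iff.1 (hKint.trans hKfin))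
  have hΦ := phi_measurable μ hf hp0
  have hN0 : N ≠ 0 := by
    intro h
    rw [h, mul_zero] at hEint'
    have h3 : volume (E' \ K) ≤ 0 := by
      calc volume (E' \ K) = ∫⁻ _ in E' \ K, 1 := by rw [setLIntegral_one]
        _ ≤ ∫⁻ x in E' \ K, ENNReal.ofReal c * PhiP μ f p x := by
            refine setLIntegral_mono_ae' (hEc'.measurableSet.diff hK.compact.measurableSet) ?_
            exact Filter.Eventually.of_forall fun x hx => h2 x hx.2
        _ = ENNReal.ofReal c * ∫⁻ x in E' \ K, PhiP μ f p x :=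
            lintegral_const_mul' _ _ ENNReal.ofReal_ne_top
        _ ≤ ENNReal.ofReal c * ∫⁻ x in E', PhiP μ f p x := by
            gcongr
            exact sdiff_subset
        _ = 0 := by rw [hEint', mul_zero]
    have h4 : volume E' ≤ volume K := by
      calc volume E' ≤ volume (K ∪ E' \ K) := measure_mono (by
            intro x hx
            by_cases hxK : x ∈ K
            · exact Or.inl hxK
            · exact Or.inr ⟨hx, hxK⟩)
        _ ≤ volume K + volume (E' \ K) := measure_union_le _ _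
        _ ≤ volume K + 0 := by gcongr
        _ = volume K := add_zero _
    have h5 := ENNReal.toReal_mono hfin h4
    rw [hEV'] at h5
    linarith
  have hvol : volume K = volume E := by
    rw [← ENNReal.toReal_eq_toReal_iff' hfin hEc.measure_lt_top.ne, hEV]
  have hc1 : (1 : ENNReal) ≤ ENNReal.ofReal c := by
    rw [← ENNReal.ofReal_one]
    exact ENNReal.ofReal_le_ofReal hc
  have hb := bathtub hK.compact.measurableSet hEc.measurableSet hvol hfin hΦ hc1 h1 h2
  have h6 := hKint.trans hb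
  rw [hEint, ← mul_assoc, ← ENNReal.ofReal_mul (by linarith)] at h6
  have h7 : ENNReal.ofReal (a * V) ≤ ENNReal.ofReal (c * (V / JJ n 0 * (R ^ p * JJ n p))) :=
    (ENNReal.mul_le_mul_iff_left hN0 hNtop).1 h6
  have h8 : a * V ≤ c * (V / JJ n 0 * (R ^ p * JJ n p)) := by
    rwa [ENNReal.ofReal_le_ofReal_iff (mul_nonneg (by linarith) (hκ V R hV hR))] at h7
  have h9 : c * (V / JJ n 0 * (R ^ p * JJ n p)) = c * (R ^ p * JJ n p) * V / JJ n 0 := by ring
  rw [h9, le_div_iff₀ hJ0] at h8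
  have h10 : (a * JJ n 0) * V ≤ (c * (R ^ p * JJ n p)) * V := by linarith
  exact le_of_mul_le_mul_right h10 hV

end Vale.Agent.P254U
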