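import Vale.Agent.Lib.P254U.FS.AffSIC
import Vale.Agent.Lib.P254U.FS.Join

/-!
P254U/ZP: unit balls of finite-dimensional subspaces of `L_p`.

OVERVIEW.  `K = {x : ∫ |∑ x_i f_i(ω)|^p dμ(ω) ≤ 1}` a convex body in `ℝ^n`, `Σ` its covariance.
(1) BATHTUB: `K` is a sublevel set of `Φ = PhiP μ f p`, hence `∫_K Φ ≤ ∫_E Φ` for every `E` with
`|E| = |K|`.  Take for `E` the ellipsoid `R Σ^(1/2) B` (`B` the unit ball).
(2) `∫_E |⟨x,w⟩|^p = |E| R^p (wᵀΣw)^(p/2) J_p / J_0`, `J_p = ∫_B |x_0|^p = JJ n p`.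
(3) `∫_K |⟨x,w⟩|^p ≥ a |K| (wᵀΣw)^(p/2)`: for `p = 1` with `a^2 = (n+2)/(2(n+1))` (Berwald,
from Brunn-Minkowski), for `p ≥ 2` with `a = 1` (Jensen).
(4) Integrating in `ω`: `a J_0 ≤ R^p J_p`, i.e. an upper bound for `det Σ / |K|^2 = 1/(R^(2n) J_0^2)`.
(5) Numerical inequalities: this is smaller than the value of the simplex for `p = 1, n ≥ 3` and for
`2 ≤ p ≤ 4, n ≥ 6`.
-/

open MeasureTheory Set

namespace Vale.Agent.P254U

variable {n : ℕ}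

/-- the Euclidean unit ball of `ℝ^n` -/
def eball (n : ℕ) : Set (Fin n → ℝ) := {x | ∑ i, x i ^ 2 ≤ 1}

/-- `∫ |x_0|^p` over the unit ball -/
noncomputable def JJ (n : ℕ) (p : ℝ) : ℝ :=
  Real.Gamma ((p + 1) / 2) * Real.pi ^ (((n : ℝ) - 1) / 2) / Real.Gamma (((n : ℝ) + p) / 2 + 1)

/-- the `p`-th power of the norm of `∑ x_i f_i` in `L_p(μ)`, with values in `[0, ∞]` -/
noncomputable def PhiP {Ω : Type*} [MeasurableSpace Ω] (μ : Measure Ω) (f : Ω → (Fin n → ℝ))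
    (p : ℝ) (x : Fin n → ℝ) : ENNReal :=
  ∫⁻ ω, ENNReal.ofReal (|∑ i, x i * f ω i| ^ p) ∂μ

/-- tail sets of a linear functional on `K` -/
def tailS (K : Set (Fin n → ℝ)) (w : Fin n → ℝ) (t : ℝ) : Set (Fin n → ℝ) :=
  {x | x ∈ K ∧ t ≤ ∑ i, w i * x i}

noncomputable def tailV (K : Set (Fin n → ℝ)) (w : Fin n → ℝ) (t : ℝ) : ℝ :=
  (volume (tailS K w t)).toReal

end Vale.Agent.P254U
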