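import Vale.Agent.Lib.P254U.ZP.Defs
import Vale.Agent.Lib.P254U.LM.AMGM

/-!
P254U/ZP/EllK: bodies of large volume in the unit ball.

`second_moment_le`: for `t ∈ (0,1)`, `x ∈ √t • K` implies `|x|^2 ≤ t` (as `K ⊆ B`), so
`{x ∈ K : |x|^2 > t} ⊆ K \ √t • K`, which has volume `(1 - t^(n/2)) |K|` (`√t • K ⊆ K` since `0 ∈ K`);
layer cake: `∫_K |x|^2 = ∫_0^1 |{x ∈ K : |x|^2 > t}| dt ≤ |K| (1 - 2/(n+2))`.
`rat_lt_of_ball`: `tr Σ ≤ ∫_K |x|^2 / |K| ≤ n/(n+2)`, so `det Σ ≤ (tr Σ / n)^n ≤ (n+2)^(-n)`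
(AM-GM for positive definite matrices, see LM/AMGM for a determinant-trace inequality), and
`Rat K = (n+1)^(n+1) (n+2)^n det Σ / (n! V)^2 ≤ (n+1)^(n+1) / (n! V)^2 < 1`.
-/

open MeasureTheory Set

namespace Vale.Agent.P254U

variable {n : ℕ}

private theorem EllK_int {K : Set (Fin n → ℝ)} (hK : IsCompact K) {f : (Fin n → ℝ) → ℝ}
    (hf : Continuous f) : IntegrableOn f K := hf.continuousOn.integrableOn_compact hK

open scoped Pointwise in
/-- comparison of `K` with `lam • K` -/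
private theorem EllK_scale {K : Set (Fin n → ℝ)} (hK : ConvBody n K)
    (h0 : (0 : Fin n → ℝ) ∈ K) (hB : K ⊆ eball n) {lam : ℝ} (hl0 : 0 < lam) (hl1 : lam < 1) :
    (∫ x in K, ∑ i, x i ^ 2) * (1 - lam ^ (n + 2)) ≤ (volume K).toReal * (1 - lam ^ n) := by
  have hq : Continuous fun x : Fin n → ℝ => ∑ i, x i ^ 2 := by fun_prop
  have hKm := hK.compact.measurableSet
  have hKf : volume K ≠ ⊤ := hK.compact.measure_lt_top.ne
  have hsub : lam • K ⊆ K := by
    rintro _ ⟨x, hx, rfl⟩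
    exact hK.convex.smul_mem_of_zero_mem h0 hx ⟨hl0.le, hl1.le⟩
  have hlK : IsCompact (lam • K) := hK.compact.smul lam
  have hlm := hlK.measurableSet
  -- volume
  have hvol : (volume (lam • K)).toReal = lam ^ n * (volume K).toReal := by
    rw [Measure.addHaar_smul, ENNReal.toReal_mul, ENNReal.toReal_ofReal (abs_nonneg _),
      Module.finrank_fin_fun, abs_of_nonneg (pow_nonneg hl0.le n)]
  -- second moment
  have hmom : ∫ x in lam • K, ∑ i, x i ^ 2 = lam ^ (n + 2) * ∫ x in K, ∑ i, x i ^ 2 := by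
    have h1 := Measure.setIntegral_comp_smul (volume : Measure (Fin n → ℝ))
      (fun x : Fin n → ℝ => ∑ i, x i ^ 2) K hl0.ne'
    rw [Module.finrank_fin_fun, abs_of_pos (inv_pos.mpr (pow_pos hl0 n)), smul_eq_mul] at h1
    have h2 : ∫ x in K, ∑ i, (lam • x) i ^ 2 = lam ^ 2 * ∫ x in K, ∑ i, x i ^ 2 := by
      rw [← integral_const_mul]
      refine integral_congr_ae (Filter.Eventually.of_forall fun x => ?_)
      simp only [Pi.smul_apply, smul_eq_mul, mul_pow, Finset.mul_sum]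
    rw [h2] at h1
    have h3 : lam ^ n ≠ 0 := (pow_pos hl0 n).ne'
    field_simp at h1
    rw [pow_add]
    linarith
  -- the difference
  have hd : ∫ x in K \ lam • K, ∑ i, x i ^ 2 ≤ (volume (K \ lam • K)).toReal := by
    have h1 : IntegrableOn (fun x : Fin n → ℝ => ∑ i, x i ^ 2) (K \ lam • K) :=
      (EllK_int hK.compact hq).mono_set sdiff_subset
    have h2 : IntegrableOn (fun _ : Fin n → ℝ => (1 : ℝ)) (K \ lam • K) :=
      (EllK_int hK.compact continuous_const).mono_set sdiff_subset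
    have h3 := setIntegral_mono_on h1 h2 (hKm.diff hlm) (fun x hx => hB hx.1)
    rw [setIntegral_const, smul_eq_mul, mul_one] at h3
    exact h3
  have hsplit := setIntegral_sdiff hlm (EllK_int hK.compact hq) hsub
  have hvd : (volume (K \ lam • K)).toReal = (volume K).toReal - lam ^ n * (volume K).toReal := by
    rw [measure_sdiff hsub hlm.nullMeasurableSet hlK.measure_lt_top.ne,
      ENNReal.toReal_sub_of_le (measure_mono hsub) hKf, hvol]
  rw [hvd] at hd
  rw [hmom] at hsplit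
  linarith

theorem second_moment_le (hn : 1 ≤ n) {K : Set (Fin n → ℝ)} (hK : ConvBody n K)
    (h0 : (0 : Fin n → ℝ) ∈ K) (hB : K ⊆ eball n) :
    ∫ x in K, ∑ i, x i ^ 2 ≤ (n : ℝ) / ((n : ℝ) + 2) * (volume K).toReal := by
  set I := ∫ x in K, ∑ i, x i ^ 2 with hI
  set V := (volume K).toReal with hV
  have hgeom : ∀ (m : ℕ) (lam : ℝ), 1 - lam ^ m = (1 - lam) * ∑ i ∈ Finset.range m, lam ^ i := by
    intro m lam
    have := geom_sum_mul lam m
    linarith
  have hineq : ∀ᶠ lam : ℝ in nhdsWithin 1 (Iio 1),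
      I * ∑ i ∈ Finset.range (n + 2), lam ^ i ≤ V * ∑ i ∈ Finset.range n, lam ^ i := by
    have h1 : ∀ᶠ lam : ℝ in nhdsWithin 1 (Iio 1), lam ∈ Ioo (0 : ℝ) 1 :=
      Ioo_mem_nhdsLT one_pos
    filter_upwards [h1] with lam hlam
    have h2 := EllK_scale hK h0 hB hlam.1 hlam.2
    rw [hgeom (n + 2), hgeom n] at h2
    have h3 : 0 < 1 - lam := by linarith [hlam.2]
    refine le_of_mul_le_mul_left ?_ h3
    calc (1 - lam) * (I * ∑ i ∈ Finset.range (n + 2), lam ^ i)
        = I * ((1 - lam) * ∑ i ∈ Finset.range (n + 2), lam ^ i) := by ring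
      _ ≤ V * ((1 - lam) * ∑ i ∈ Finset.range n, lam ^ i) := h2
      _ = _ := by ring
  have hL : Filter.Tendsto (fun lam : ℝ => I * ∑ i ∈ Finset.range (n + 2), lam ^ i)
      (nhdsWithin 1 (Iio 1)) (nhds (I * ∑ i ∈ Finset.range (n + 2), (1 : ℝ) ^ i)) := by
    have hc : Continuous fun lam : ℝ => I * ∑ i ∈ Finset.range (n + 2), lam ^ i := by fun_prop
    exact (hc.tendsto 1).mono_left nhdsWithin_le_nhds
  have hR : Filter.Tendsto (fun lam : ℝ => V * ∑ i ∈ Finset.range n, lam ^ i)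
      (nhdsWithin 1 (Iio 1)) (nhds (V * ∑ i ∈ Finset.range n, (1 : ℝ) ^ i)) := by
    have hc : Continuous fun lam : ℝ => V * ∑ i ∈ Finset.range n, lam ^ i := by fun_prop
    exact (hc.tendsto 1).mono_left nhdsWithin_le_nhds
  have hfin := le_of_tendsto_of_tendsto hL hR hineq
  simp only [one_pow, Finset.sum_const, Finset.card_range, nsmul_eq_mul, mul_one] at hfin
  push_cast at hfin
  have hn2 : (0 : ℝ) < (n : ℝ) + 2 := by positivity
  rw [div_mul_eq_mul_div, le_div_iff₀ hn2]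
  linarith

theorem rat_lt_of_ball (hn : 1 ≤ n) {K : Set (Fin n → ℝ)} (hK : ConvBody n K)
    (h0 : (0 : Fin n → ℝ) ∈ K) (hB : K ⊆ eball n)
    (hV : ((n : ℝ) + 1) ^ (n + 1) < ((n.factorial : ℝ) * (volume K).toReal) ^ 2) : Rat K < 1 := by
  have hn' : (0 : ℝ) < n := by exact_mod_cast hn
  have hVp := convBody_vol_pos hK
  have hf : (0 : ℝ) < (n.factorial : ℝ) := by positivity
  have hI := second_moment_le hn hK h0 hB
  have hsum : ∫ x in K, ∑ i, x i ^ 2 = ∑ i, ∫ x in K, x i * x i := by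
    rw [integral_finsetSum _ fun i _ => EllK_int hK.compact (by fun_prop)]
    exact Finset.sum_congr rfl fun i _ =>
      integral_congr_ae (Filter.Eventually.of_forall fun x => sq _)
  have hm : ∀ i, ∫ x in K, x i * x i = mom2 K i i * (volume K).toReal := by
    intro i
    unfold mom2
    field_simp
  have hmom : ∑ i, mom2 K i i ≤ (n : ℝ) / ((n : ℝ) + 2) := by
    rw [hsum] at hI
    simp only [hm] at hI
    rw [← Finset.sum_mul] at hI
    exact le_of_mul_le_mul_right hI hVp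
  have hS : ∀ i, SM K i i = ((n : ℝ) + 1) * ((n : ℝ) + 2) *
      (mom2 K i i - cen K i * cen K i) := by
    intro i
    rw [← covM_eq hK]
    rfl
  have htr : (SM K).trace ≤ n * ((n : ℝ) + 1) := by
    have h1 : (SM K).trace = ((n : ℝ) + 1) * ((n : ℝ) + 2) *
        (∑ i, mom2 K i i - ∑ i, cen K i * cen K i) := by
      simp only [Matrix.trace, Matrix.diag_apply, hS, ← Finset.mul_sum, Finset.sum_sub_distrib]
    have h2 : 0 ≤ ∑ i, cen K i * cen K i := Finset.sum_nonneg fun i _ => mul_self_nonneg _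
    have h3 : ((n : ℝ) + 1) * ((n : ℝ) + 2) * (∑ i, mom2 K i i - ∑ i, cen K i * cen K i) ≤
        ((n : ℝ) + 1) * ((n : ℝ) + 2) * ((n : ℝ) / ((n : ℝ) + 2)) :=
      mul_le_mul_of_nonneg_left (by linarith) (by positivity)
    have h4 : ((n : ℝ) + 1) * ((n : ℝ) + 2) * ((n : ℝ) / ((n : ℝ) + 2)) = n * ((n : ℝ) + 1) := by
      field_simp
    rw [h1]
    linarith
  have htr0 : 0 ≤ (SM K).trace := (SM_posDef hK).posSemidef.trace_nonneg
  have hdet := det_mul_det_le hn (SM_posDef hK).posSemidef (Matrix.PosDef.one (n := Fin n) (R := ℝ))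
  rw [Matrix.det_one, mul_one, Matrix.one_mul] at hdet
  have h5 : ((SM K).trace / n) ^ n ≤ ((n : ℝ) + 1) ^ n := by
    refine pow_le_pow_left₀ (div_nonneg htr0 hn'.le) ?_ n
    rw [div_le_iff₀ hn']
    linarith
  have hpos : 0 < ((n.factorial : ℝ) * (volume K).toReal) ^ 2 := by positivity
  unfold Rat
  rw [div_lt_one hpos]
  refine lt_of_le_of_lt ?_ hV
  calc ((n : ℝ) + 1) * (SM K).det ≤ ((n : ℝ) + 1) * ((n : ℝ) + 1) ^ n :=
        mul_le_mul_of_nonneg_left (hdet.trans h5) (by positivity)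
    _ = ((n : ℝ) + 1) ^ (n + 1) := by ring

end Vale.Agent.P254U
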