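import Vale.Agent.Lib.P254U.ZP.Ball

/-!
P254U/ZP/Ellip: the comparison ellipsoid.

`A` positive definite: `A = S * Sᵀ` with `S` invertible (Cholesky, or the square root; e.g.
`Matrix.posSemidef_iff_eq_conjTranspose_mul_self` and `det A ≠ 0`), `det A = (det S)^2`.
`R` is defined by `R^n * |det S| * JJ n 0 = V`; `E = (fun x => R • S.mulVec x) '' eball n`.
Change of variables (`integral_image_eq_integral_abs_det_fderiv_smul`, or
`Measure.addHaar_image_linearMap` for the volume):
`∫_E |⟨w,y⟩|^p = R^n |det S| ∫_B |⟨w, R S x⟩|^p = R^n |det S| R^p ∫_B |⟨Sᵀ w, x⟩|^p`, use `ball_moment`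
and `|Sᵀ w|^2 = wᵀ A w`; and `R^n |det S| = V / JJ n 0`.
-/

open MeasureTheory Set

namespace Vale.Agent.P254U

variable {n : ℕ}

open scoped MatrixOrder in
private theorem Ellip_factor {A : Matrix (Fin n) (Fin n) ℝ} (hA : A.PosDef) :
    ∃ S : Matrix (Fin n) (Fin n) ℝ, A = S * S.transpose := by
  obtain ⟨B, hB⟩ := CStarAlgebra.nonneg_iff_eq_star_mul_self.mp hA.posSemidef.nonneg
  refine ⟨B.transpose, ?_⟩
  rw [hB, Matrix.transpose_transpose]
  rfl

private theorem Ellip_isCompact (n : ℕ) : IsCompact (eball n) := by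
  have hcl : IsClosed (eball n) := by
    unfold eball
    exact isClosed_le (by fun_prop) continuous_const
  refine Metric.isCompact_of_isClosed_isBounded hcl ?_
  refine (Metric.isBounded_closedBall (x := (0 : Fin n → ℝ)) (r := 1)).subset fun x hx => ?_
  rw [mem_closedBall_zero_iff, pi_norm_le_iff_of_nonneg zero_le_one]
  intro i
  have h1 : x i ^ 2 ≤ ∑ j, x j ^ 2 :=
    Finset.single_le_sum (f := fun j => x j ^ 2) (fun j _ => sq_nonneg _) (Finset.mem_univ i)
  have h2 : x i ^ 2 ≤ 1 := h1.trans hx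
  rw [Real.norm_eq_abs]
  exact (sq_le_one_iff_abs_le_one _).1 h2

theorem exists_ellip (hn : 1 ≤ n) {A : Matrix (Fin n) (Fin n) ℝ} (hA : A.PosDef) {V : ℝ}
    (hV : 0 < V) : ∃ E : Set (Fin n → ℝ), IsCompact E ∧ (volume E).toReal = V ∧
      ∃ R : ℝ, 0 < R ∧ R ^ (2 * n) * A.det * (JJ n 0) ^ 2 = V ^ 2 ∧
        ∀ p : ℝ, 0 ≤ p → ∀ w : Fin n → ℝ, ∫ x in E, |∑ i, w i * x i| ^ p =
          V / JJ n 0 * (R ^ p * (w ⬝ᵥ A.mulVec w) ^ (p / 2) * JJ n p) := by
  obtain ⟨S, hS⟩ := Ellip_factor hA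
  have hJ := JJ_pos n (le_refl (0 : ℝ))
  have hdet : A.det = S.det ^ 2 := by
    rw [hS, Matrix.det_mul, Matrix.det_transpose, sq]
  have hSd : S.det ≠ 0 := by
    intro h0
    have := hA.det_pos
    rw [hdet, h0] at this
    norm_num at this
  have hc : 0 < |S.det| := abs_pos.2 hSd
  obtain ⟨R, hR⟩ : ∃ R, R = (V / (|S.det| * JJ n 0)) ^ ((1 : ℝ) / n) := ⟨_, rfl⟩
  have hq : 0 < V / (|S.det| * JJ n 0) := by positivity
  have hRp : 0 < R := by
    rw [hR]
    exact Real.rpow_pos_of_pos hq _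
  have hn0 : (n : ℝ) ≠ 0 := by
    have : (1 : ℝ) ≤ n := by exact_mod_cast hn
    linarith
  have hRn : R ^ n = V / (|S.det| * JJ n 0) := by
    rw [hR, ← Real.rpow_natCast, ← Real.rpow_mul hq.le, one_div, inv_mul_cancel₀ hn0,
      Real.rpow_one]
  have hRV : R ^ n * |S.det| = V / JJ n 0 := by
    rw [hRn]
    field_simp
  -- the linear map
  obtain ⟨L, hL⟩ : ∃ L : (Fin n → ℝ) →ₗ[ℝ] (Fin n → ℝ), L = R • Matrix.toLin' S := ⟨_, rfl⟩
  have hLx : ∀ x, L x = R • S.mulVec x := by
    intro x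
    rw [hL]
    simp
  have hLdet : LinearMap.det L = R ^ n * S.det := by
    rw [hL, LinearMap.det_smul, LinearMap.det_toLin', Module.finrank_fin_fun]
  have hLabs : |LinearMap.det L| = V / JJ n 0 := by
    rw [hLdet, abs_mul, abs_of_pos (by positivity), hRV]
  have hLinj : Function.Injective L := by
    have hu : IsUnit (LinearMap.det L) := by
      rw [isUnit_iff_ne_zero, ← abs_pos, hLabs]
      positivity
    exact ((LinearMap.isUnit_iff_isUnit_det L).2 hu |> (Module.End.isUnit_iff L).1).1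
  have hcomp := Ellip_isCompact n
  refine ⟨L '' eball n, hcomp.image (LinearMap.continuous_of_finiteDimensional L), ?_, R, hRp,
    ?_, ?_⟩
  · rw [Measure.addHaar_image_linearMap, ENNReal.toReal_mul, ENNReal.toReal_ofReal (abs_nonneg _),
      eball_vol hn, hLabs, div_mul_cancel₀ _ hJ.ne']
  · rw [hdet, mul_comm 2 n, pow_mul, ← sq_abs S.det, ← mul_pow, hRV, ← mul_pow,
      div_mul_cancel₀ _ hJ.ne']
  · intro p hp w
    have hLc : ∀ x ∈ eball n, HasFDerivWithinAt L (LinearMap.toContinuousLinearMap L) (eball n) x :=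
      fun x _ => (LinearMap.toContinuousLinearMap L).hasFDerivWithinAt
    rw [integral_image_eq_integral_abs_det_fderiv_smul volume hcomp.isClosed.measurableSet hLc
      hLinj.injOn]
    have hd : (LinearMap.toContinuousLinearMap L).det = LinearMap.det L := rfl
    have hterm : ∀ x : Fin n → ℝ, |(LinearMap.toContinuousLinearMap L).det| •
        |∑ i, w i * L x i| ^ p =
        V / JJ n 0 * R ^ p * |∑ i, (S.transpose.mulVec w) i * x i| ^ p := by
      intro x
      rw [hd, hLabs, smul_eq_mul]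
      have h1 : ∑ i, w i * L x i = R * ∑ i, (S.transpose.mulVec w) i * x i := by
        have h2 : ∑ i, w i * L x i = w ⬝ᵥ L x := rfl
        have h3 : ∑ i, (S.transpose.mulVec w) i * x i = (S.transpose.mulVec w) ⬝ᵥ x := rfl
        rw [h2, h3, hLx, dotProduct_smul, smul_eq_mul, Matrix.dotProduct_mulVec,
          Matrix.mulVec_transpose]
      rw [h1, abs_mul, abs_of_pos hRp, Real.mul_rpow hRp.le (abs_nonneg _)]
      ring
    simp_rw [hterm]
    rw [integral_const_mul, ball_moment hn hp]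
    have hquad : ∑ i, (S.transpose.mulVec w) i ^ 2 = w ⬝ᵥ A.mulVec w := by
      have h1 : ∑ i, (S.transpose.mulVec w) i ^ 2 =
          (S.transpose.mulVec w) ⬝ᵥ (S.transpose.mulVec w) := by
        unfold dotProduct
        exact Finset.sum_congr rfl fun i _ => sq _
      rw [h1, hS, ← Matrix.mulVec_mulVec, Matrix.dotProduct_mulVec w, Matrix.mulVec_transpose]
    rw [hquad]
    ring

end Vale.Agent.P254U
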