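import Vale.Agent.Lib.P254U.ZP.BM

/-!
P254U/ZP/RevA: layer cake for a linear functional `ℓ(x) = ∑ w_i x_i` on a symmetric body.
`T` is an upper bound of `ℓ` on `K`.  By symmetry `∫_K |ℓ|^q = 2 ∫_{K, ℓ ≥ 0} ℓ^q` and
`∫_{K, ℓ ≥ 0} ℓ = ∫_0^T |{x ∈ K : ℓ x ≥ t}| dt`, `∫_{K, ℓ ≥ 0} ℓ^2 = ∫_0^T 2 t |{ℓ ≥ t}| dt`
(Fubini: `ℓ x = ∫_0^T 1_{t ≤ ℓ x} dt`, `(ℓ x)^2 = ∫_0^T 2 t 1_{t ≤ ℓ x} dt` if `0 ≤ ℓ x ≤ T`).
`tail_zero`: `|{ℓ ≥ 0}| = |{ℓ ≤ 0}| ≥ |K|/2`, and `{ℓ = 0}` is a null set for `w ≠ 0`
(`Measure.addHaar_affineSubspace` or a proper subspace).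
-/

open MeasureTheory Set

namespace Vale.Agent.P254U

variable {n : ℕ}

/-- the linear functional -/
private def RevA_L (w : Fin n → ℝ) : (Fin n → ℝ) →ₗ[ℝ] ℝ where
  toFun := fun x => ∑ i, w i * x i
  map_add' := fun x y => by simp [mul_add, Finset.sum_add_distrib]
  map_smul' := fun a x => by
    simp only [Pi.smul_apply, smul_eq_mul, RingHom.id_apply, Finset.mul_sum]
    exact Finset.sum_congr rfl fun i _ => by ring

private theorem RevA_cont (w : Fin n → ℝ) : Continuous fun x : Fin n → ℝ => ∑ i, w i * x i := by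
  fun_prop

private theorem RevA_neg (w x : Fin n → ℝ) : ∑ i, w i * (-x) i = -∑ i, w i * x i := by
  simp

private theorem RevA_null {w : Fin n → ℝ} (hw : w ≠ 0) :
    volume {x : Fin n → ℝ | ∑ i, w i * x i = 0} = 0 := by
  have h1 : LinearMap.ker (RevA_L w) ≠ ⊤ := by
    intro h
    have h2 : w ∈ LinearMap.ker (RevA_L w) := by rw [h]; trivial
    rw [LinearMap.mem_ker] at h2
    change ∑ i, w i * w i = 0 at h2
    apply hw
    rw [Finset.sum_eq_zero_iff_of_nonneg (fun i _ => mul_self_nonneg _)] at h2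
    funext i
    exact mul_self_eq_zero.1 (h2 i (Finset.mem_univ i))
  exact Measure.addHaar_submodule volume _ h1

private theorem RevA_tail_meas {K : Set (Fin n → ℝ)} (hK : ConvBody n K) (w : Fin n → ℝ) (t : ℝ) :
    MeasurableSet (tailS K w t) := by
  have : tailS K w t = K ∩ {x | t ≤ ∑ i, w i * x i} := rfl
  rw [this]
  exact hK.compact.measurableSet.inter
    (measurableSet_le measurable_const (RevA_cont w).measurable)

private theorem RevA_tail_ne {K : Set (Fin n → ℝ)} (hK : ConvBody n K) (w : Fin n → ℝ) (t : ℝ) :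
    volume (tailS K w t) ≠ ⊤ :=
  ((measure_mono (fun _ hx => hx.1)).trans_lt hK.compact.measure_lt_top).ne

theorem tail_zero {K : Set (Fin n → ℝ)} (hK : ConvBody n K) (hs : ∀ x ∈ K, -x ∈ K)
    {w : Fin n → ℝ} (hw : w ≠ 0) : 2 * tailV K w 0 = (volume K).toReal := by
  have h1 : tailS K w 0 ∪ -tailS K w 0 = K := by
    ext x
    simp only [mem_union, Set.mem_neg]
    constructor
    · rintro (h | h)
      · exact h.1
      · have := hs _ h.1
        rwa [neg_neg] at this
    · intro hx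
      rcases le_total 0 (∑ i, w i * x i) with h | h
      · exact Or.inl ⟨hx, h⟩
      · refine Or.inr ⟨hs x hx, ?_⟩
        rw [RevA_neg]
        linarith
  have h2 : volume (tailS K w 0 ∩ -tailS K w 0) = 0 := by
    refine measure_mono_null ?_ (RevA_null hw)
    rintro x ⟨hx1, hx2⟩
    have h3 := hx1.2
    have h4 : (0 : ℝ) ≤ ∑ i, w i * (-x) i := (Set.mem_neg.1 hx2).2
    rw [RevA_neg] at h4
    exact le_antisymm (by linarith) h3
  have h3 := measure_union_add_inter (μ := (volume : Measure (Fin n → ℝ))) (tailS K w 0)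
    (RevA_tail_meas hK w 0).neg
  rw [h1, h2, add_zero, Measure.measure_neg] at h3
  rw [h3, ENNReal.toReal_add (RevA_tail_ne hK w 0) (RevA_tail_ne hK w 0), tailV]
  ring

private theorem RevA_anti {K : Set (Fin n → ℝ)} (hK : ConvBody n K) (w : Fin n → ℝ) :
    Antitone (tailV K w) := by
  intro s t hst
  refine ENNReal.toReal_mono (RevA_tail_ne hK w s) (measure_mono ?_)
  exact fun x hx => ⟨hx.1, hst.trans hx.2⟩

/-- the layer cake formula for the positive part -/
private theorem RevA_cake {K : Set (Fin n → ℝ)} (hK : ConvBody n K) (w : Fin n → ℝ) {T : ℝ}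
    (hT0 : 0 ≤ T) (hT : ∀ x ∈ K, ∑ i, w i * x i ≤ T) {g : ℝ → ℝ} (hg : Continuous g)
    (hg0 : ∀ t, 0 ≤ t → 0 ≤ g t) :
    ∫ x in K, (∫ t in (0 : ℝ)..(max (∑ i, w i * x i) 0), g t) =
      ∫ t in (0 : ℝ)..T, g t * tailV K w t := by
  have hKm := hK.compact.measurableSet
  have hfc : Continuous fun x : Fin n → ℝ => max (∑ i, w i * x i) 0 :=
    (RevA_cont w).max continuous_const
  have hint : Continuous fun s : ℝ => ∫ t in (0 : ℝ)..s, g t :=
    intervalIntegral.continuous_primitive (fun a b => hg.intervalIntegrable a b) 0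
  have h1 : ∫ x in K, (∫ t in (0 : ℝ)..(max (∑ i, w i * x i) 0), g t) =
      (∫⁻ x in K, ENNReal.ofReal (∫ t in (0 : ℝ)..(max (∑ i, w i * x i) 0), g t)).toReal := by
    refine integral_eq_lintegral_of_nonneg_ae (Filter.Eventually.of_forall fun x => ?_)
      (hint.comp hfc).aestronglyMeasurable
    exact intervalIntegral.integral_nonneg (le_max_right _ _) fun t ht => hg0 t ht.1
  have h2 := lintegral_comp_eq_lintegral_meas_le_mul (volume.restrict K)
    (f := fun x : Fin n → ℝ => max (∑ i, w i * x i) 0) (g := g)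
    (Filter.Eventually.of_forall fun x => le_max_right _ _) hfc.measurable.aemeasurable
    (fun t _ => hg.intervalIntegrable 0 t)
    ((ae_restrict_iff' measurableSet_Ioi).2 (Filter.Eventually.of_forall fun t ht =>
      hg0 t (le_of_lt ht)))
  have h3 : ∀ t : ℝ, 0 < t → (volume.restrict K) {a : Fin n → ℝ | t ≤ max (∑ i, w i * a i) 0} =
      volume (tailS K w t) := by
    intro t ht
    rw [Measure.restrict_apply (measurableSet_le measurable_const hfc.measurable)]
    congr 1
    ext x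
    simp only [mem_inter_iff, mem_ofPred_eq, tailS, le_max_iff]
    constructor
    · rintro ⟨h | h, hx⟩
      · exact ⟨hx, h⟩
      · exact absurd h (not_le.2 ht)
    · rintro ⟨hx, h⟩
      exact ⟨Or.inl h, hx⟩
  have h4 : ∫⁻ t in Ioi (0 : ℝ), (volume.restrict K) {a : Fin n → ℝ | t ≤ max (∑ i, w i * a i) 0} *
      ENNReal.ofReal (g t) = ∫⁻ t in Ioc (0 : ℝ) T, ENNReal.ofReal (g t * tailV K w t) := by
    rw [← lintegral_indicator measurableSet_Ioi, ← lintegral_indicator measurableSet_Ioc]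
    refine lintegral_congr fun t => ?_
    by_cases ht : 0 < t
    · rw [Set.indicator_of_mem (by exact ht), h3 t ht]
      by_cases htT : t ≤ T
      · rw [Set.indicator_of_mem (by exact ⟨ht, htT⟩), ENNReal.ofReal_mul (hg0 t ht.le), tailV,
          ENNReal.ofReal_toReal (RevA_tail_ne hK w t), mul_comm]
      · rw [Set.indicator_of_notMem (by exact fun h => htT h.2)]
        have : tailS K w t = ∅ := by
          rw [Set.eq_empty_iff_forall_notMem]
          rintro x ⟨hx, h⟩
          exact htT (h.trans (hT x hx))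
        rw [this, measure_empty, zero_mul]
    · rw [Set.indicator_of_notMem (by exact ht), Set.indicator_of_notMem (by exact fun h => ht h.1)]
  have h5 : ∫ t in (0 : ℝ)..T, g t * tailV K w t =
      (∫⁻ t in Ioc (0 : ℝ) T, ENNReal.ofReal (g t * tailV K w t)).toReal := by
    rw [intervalIntegral.integral_of_le hT0]
    refine integral_eq_lintegral_of_nonneg_ae ?_ ?_
    · rw [Filter.EventuallyLE, ae_restrict_iff' measurableSet_Ioc]
      exact Filter.Eventually.of_forall fun t ht => mul_nonneg (hg0 t ht.1.le) ENNReal.toReal_nonneg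
    · exact (hg.measurable.mul (RevA_anti hK w).measurable).aestronglyMeasurable
  rw [h1, h2, h4, h5]

private theorem RevA_T0 {K : Set (Fin n → ℝ)} (hK : ConvBody n K) (hs : ∀ x ∈ K, -x ∈ K)
    (w : Fin n → ℝ) {T : ℝ} (hT : ∀ x ∈ K, ∑ i, w i * x i ≤ T) : 0 ≤ T := by
  obtain ⟨x, hx⟩ := hK.interior_nonempty
  have h1 := hT x (interior_subset hx)
  have h2 := hT (-x) (hs x (interior_subset hx))
  rw [RevA_neg] at h2
  linarith

/-- symmetrisation -/
private theorem RevA_sym {K : Set (Fin n → ℝ)} (hK : ConvBody n K) (hs : ∀ x ∈ K, -x ∈ K)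
    (w : Fin n → ℝ) {h : ℝ → ℝ} (hh : Continuous h) (h0 : h 0 = 0) :
    ∫ x in K, h |∑ i, w i * x i| = 2 * ∫ x in K, h (max (∑ i, w i * x i) 0) := by
  have hc := RevA_cont w
  have e1 : ∀ x : Fin n → ℝ, h |∑ i, w i * x i| =
      h (max (∑ i, w i * x i) 0) + h (max (∑ i, w i * (-x) i) 0) := by
    intro x
    rw [RevA_neg]
    rcases le_total 0 (∑ i, w i * x i) with h1 | h1
    · rw [abs_of_nonneg h1, max_eq_left h1, max_eq_right (by linarith), h0, add_zero]
    · rw [abs_of_nonpos h1, max_eq_right h1, max_eq_left (by linarith), h0, zero_add]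
  have i1 : IntegrableOn (fun x : Fin n → ℝ => h (max (∑ i, w i * x i) 0)) K :=
    (hh.comp (hc.max continuous_const)).continuousOn.integrableOn_compact hK.compact
  have i2 : IntegrableOn (fun x : Fin n → ℝ => h (max (∑ i, w i * (-x) i) 0)) K := by
    refine ContinuousOn.integrableOn_compact hK.compact ?_
    exact (hh.comp ((hc.comp continuous_neg).max continuous_const)).continuousOn
  have hneg : (Neg.neg ⁻¹' K : Set (Fin n → ℝ)) = K := by
    ext x
    constructor
    · intro hx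
      have := hs _ hx
      rwa [neg_neg] at this
    · exact hs x
  have e2 : ∫ x in K, h (max (∑ i, w i * (-x) i) 0) = ∫ x in K, h (max (∑ i, w i * x i) 0) := by
    have := (Measure.measurePreserving_neg (volume : Measure (Fin n → ℝ))).setIntegral_preimage_emb
      (MeasurableEquiv.neg (Fin n → ℝ)).measurableEmbedding
      (fun x : Fin n → ℝ => h (max (∑ i, w i * x i) 0)) K
    rw [hneg] at this
    exact this
  simp only [e1]
  rw [integral_add i1 i2, e2]
  ring

theorem tail_layer1 {K : Set (Fin n → ℝ)} (hK : ConvBody n K) (hs : ∀ x ∈ K, -x ∈ K)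
    (w : Fin n → ℝ) {T : ℝ} (hT : ∀ x ∈ K, ∑ i, w i * x i ≤ T) :
    ∫ x in K, |∑ i, w i * x i| = 2 * ∫ t in (0 : ℝ)..T, tailV K w t := by
  have h1 := RevA_sym hK hs w (h := fun s => s) continuous_id rfl
  have h2 := RevA_cake hK w (RevA_T0 hK hs w hT) hT (g := fun _ => 1) continuous_const
    (fun _ _ => zero_le_one)
  simp only [intervalIntegral.integral_const, sub_zero, smul_eq_mul, mul_one, one_mul] at h2
  rw [h1, h2]

theorem tail_layer2 {K : Set (Fin n → ℝ)} (hK : ConvBody n K) (hs : ∀ x ∈ K, -x ∈ K)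
    (w : Fin n → ℝ) {T : ℝ} (hT : ∀ x ∈ K, ∑ i, w i * x i ≤ T) :
    ∫ x in K, (∑ i, w i * x i) ^ 2 = 2 * ∫ t in (0 : ℝ)..T, 2 * t * tailV K w t := by
  have h1 := RevA_sym hK hs w (h := fun s => s ^ 2) (continuous_pow 2) (by norm_num)
  have h2 := RevA_cake hK w (RevA_T0 hK hs w hT) hT (g := fun t => 2 * t)
    (continuous_const.mul continuous_id) (fun t ht => by positivity)
  have h3 : ∀ s : ℝ, ∫ t in (0 : ℝ)..s, 2 * t = s ^ 2 := by
    intro s
    rw [intervalIntegral.integral_const_mul, integral_id]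
    ring
  simp only [h3] at h2
  simp only [sq_abs] at h1
  rw [h1, h2]

end Vale.Agent.P254U
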